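import Vale.Agent.P002.Velocity

/-!
The base point: a scaled cyclic permutation matrix and a diagonal matrix with distinct window
products.
-/

namespace Vale.Agent.P002

open Matrix Complex
open Fin.NatCast

variable {m : ℕ}

/-- The weighted cyclic shift. -/
def cyc (x : Fin (m + 2) → ℂ) : Mat (m + 2) ℂ :=
  Matrix.of fun a b => if a = b + 1 then x a else 0

/-- The weight of a window of length `k` after `b`. -/
def win (x : Fin (m + 2) → ℂ) (k : ℕ) (b : Fin (m + 2)) : ℂ :=
  ∏ j ∈ Finset.range k, x (b + (j : Fin (m + 2)) + 1)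

theorem cyc_pow (x : Fin (m + 2) → ℂ) : ∀ (k : ℕ) (a b : Fin (m + 2)),
    (cyc x ^ k) a b = if a = b + (k : Fin (m + 2)) then win x k b else 0
  | 0, a, b => by simp [win, Matrix.one_apply]
  | k + 1, a, b => by
    rw [pow_succ', Matrix.mul_apply]
    simp only [cyc_pow x k, mul_ite, mul_zero, Finset.sum_ite_eq', Finset.mem_univ, if_true]
    simp only [cyc, Matrix.of_apply, ite_mul, zero_mul, Nat.cast_add, Nat.cast_one, ← add_assoc,
      win, Finset.prod_range_succ]
    split_ifs with h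
    · rw [h, mul_comm]
    · rfl

theorem natCast_ne_zero {k : ℕ} (h1 : 1 ≤ k) (h2 : k < m + 2) : (k : Fin (m + 2)) ≠ 0 := by
  rw [Ne, Fin.natCast_eq_zero]
  exact Nat.not_dvd_of_pos_of_lt h1 h2

theorem trace_cyc_pow (x : Fin (m + 2) → ℂ) {k : ℕ} (h1 : 1 ≤ k) (h2 : k < m + 2) :
    (cyc x ^ k).trace = 0 := by
  simp [Matrix.trace, cyc_pow, natCast_ne_zero h1 h2]

theorem pw_cyc (x : Fin (m + 2) → ℂ) {k : ℕ} (h1 : 1 ≤ k) (h2 : k < m + 2) :
    pw (cyc x) k = cyc x ^ k := by simp [pw, trace_cyc_pow x h1 h2]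

theorem diagonal_mul_cyc (y x : Fin (m + 2) → ℂ) : diagonal y * cyc x = cyc (y * x) := by
  ext a b
  simp [diagonal_mul, cyc]

theorem cyc_mul_transpose (x y : Fin (m + 2) → ℂ) (h : ∀ i, x i * y i = 1) :
    cyc x * (cyc y)ᵀ = 1 := by
  ext a b
  simp only [Matrix.mul_apply, cyc, transpose_apply, of_apply, ite_mul, zero_mul,
    ← sub_eq_iff_eq_add, Finset.sum_ite_eq, Finset.mem_univ, if_true]
  by_cases hab : a = b
  · subst hab; simp [h]
  · simp [Matrix.one_apply_ne hab, sub_left_inj, Ne.symm hab]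

/-- The scalar which makes the cyclic shift unimodular. -/
theorem exists_unimodular : ∃ c : ℂ, c ≠ 0 ∧ (cyc fun _ : Fin (m + 2) => c).det = 1 := by
  let σ : Equiv.Perm (Fin (m + 2)) := (Equiv.addRight (1 : Fin (m + 2))).symm
  obtain ⟨c, hc⟩ := IsAlgClosed.exists_pow_nat_eq ((Equiv.Perm.sign σ : ℤ) : ℂ) (Nat.succ_pos (m + 1))
  have hne : ((Equiv.Perm.sign σ : ℤ) : ℂ) ≠ 0 := Int.cast_ne_zero.2 (Units.ne_zero _)
  refine ⟨c, fun h0 => hne ?_, ?_⟩
  · rw [← hc, h0, zero_pow (Nat.succ_ne_zero _)]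
  have e : (cyc fun _ : Fin (m + 2) => c) = c • σ.permMatrix ℂ := by
    ext a b
    simp only [cyc, of_apply, Matrix.smul_apply, Equiv.Perm.permMatrix, PEquiv.toMatrix_apply,
      Equiv.toPEquiv_apply, Option.mem_def, Option.some.injEq, smul_eq_mul, mul_ite, mul_one,
      mul_zero]
    have : a = b + 1 ↔ σ a = b := by simp [σ, ← sub_eq_add_neg, sub_eq_iff_eq_add]
    simp [this]
  rw [e, det_smul, det_permutation, Fintype.card_fin, hc]
  rcases Int.units_eq_one_or (Equiv.Perm.sign σ) with h | h <;> simp [h]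

theorem adjugate_cyc {c : ℂ} (hc : c ≠ 0) (hd : (cyc fun _ : Fin (m + 2) => c).det = 1) :
    adjugate (cyc fun _ : Fin (m + 2) => c) = (cyc fun _ : Fin (m + 2) => c⁻¹)ᵀ := by
  calc adjugate (cyc fun _ : Fin (m + 2) => c)
      = adjugate (cyc fun _ : Fin (m + 2) => c) *
          ((cyc fun _ : Fin (m + 2) => c) * (cyc fun _ : Fin (m + 2) => c⁻¹)ᵀ) := by
        rw [cyc_mul_transpose _ _ fun _ => mul_inv_cancel₀ hc, mul_one]
    _ = _ := by rw [← mul_assoc, adjugate_mul, hd, one_smul, one_mul]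

/-- The exponents. -/
noncomputable def ee (m : ℕ) (i : Fin (m + 2)) : ℝ :=
  (2 : ℝ) ^ (i : ℕ) - (∑ j : Fin (m + 2), (2 : ℝ) ^ (j : ℕ)) / (m + 2 : ℕ)

/-- The diagonal entries. -/
noncomputable def dd (m : ℕ) (i : Fin (m + 2)) : ℂ := cexp (ee m i)

theorem dd_ne_zero (i : Fin (m + 2)) : dd m i ≠ 0 := Complex.exp_ne_zero _

theorem sum_ee : ∑ i, ee m i = 0 := by
  simp [ee, Finset.sum_sub_distrib]
  field_simp
  ring

theorem det_dd : (diagonal (dd m)).det = 1 := by
  simp only [det_diagonal, dd, ← Complex.exp_sum, ← Complex.ofReal_sum, sum_ee,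
    Complex.ofReal_zero, Complex.exp_zero]

theorem adjugate_dd : adjugate (diagonal (dd m)) = diagonal (dd m)⁻¹ := by
  have h : diagonal (dd m) * diagonal (dd m)⁻¹ = 1 := by
    rw [diagonal_mul_diagonal]
    simp [dd_ne_zero]
  calc adjugate (diagonal (dd m))
      = adjugate (diagonal (dd m)) * (diagonal (dd m) * diagonal (dd m)⁻¹) := by rw [h, mul_one]
    _ = _ := by rw [← mul_assoc, adjugate_mul, det_dd, one_smul, one_mul]

theorem ee_injective : Function.Injective (ee m) := fun i j h => by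
  have h' : ((2 ^ (i : ℕ) : ℕ) : ℝ) = ((2 ^ (j : ℕ) : ℕ) : ℝ) := by simpa [ee] using h
  exact Fin.ext (Nat.pow_right_injective le_rfl (Nat.cast_injective h'))

theorem dd_injective : Function.Injective (dd m) := fun i j h => by
  simp only [dd, ← Complex.ofReal_exp, Complex.ofReal_inj, Real.exp_eq_exp] at h
  exact ee_injective h

/-- The places of a window. -/
def winSet (k : ℕ) (b : Fin (m + 2)) : Finset (Fin (m + 2)) :=
  (Finset.range k).image fun j : ℕ => b + (j : Fin (m + 2)) + 1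

theorem natCast_injOn {k : ℕ} (hk : k ≤ m + 2) (b : Fin (m + 2)) :
    Set.InjOn (fun j : ℕ => b + (j : Fin (m + 2)) + 1) (Finset.range k) := by
  intro i hi j hj h
  simp only [Finset.coe_range, Set.mem_Iio] at hi hj
  simp only [add_left_inj, add_right_inj] at h
  have := congrArg Fin.val h
  rwa [Fin.val_natCast, Fin.val_natCast, Nat.mod_eq_of_lt (by omega),
    Nat.mod_eq_of_lt (by omega)] at this

theorem winSet_injective {k : ℕ} (h1 : 1 ≤ k) (h2 : k < m + 2) :
    Function.Injective (winSet (m := m) k) := by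
  intro b b' h
  have hmem : b + 1 ∈ winSet k b' := by
    rw [← h]
    exact Finset.mem_image.2 ⟨0, Finset.mem_range.2 (by omega), by simp⟩
  obtain ⟨j, hj, hjb⟩ := Finset.mem_image.1 hmem
  rw [add_left_inj] at hjb
  rcases Nat.eq_zero_or_pos j with rfl | hj0
  · simpa using hjb.symm
  obtain ⟨i, rfl⟩ := Nat.exists_eq_add_of_le' hj0
  have hb : b ∈ winSet k b' := Finset.mem_image.2
    ⟨i, Finset.mem_range.2 (by rw [Finset.mem_range] at hj; omega), by
      rw [← hjb, Nat.cast_add, Nat.cast_one, add_assoc]⟩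
  rw [← h] at hb
  obtain ⟨l, hl, hlb⟩ := Finset.mem_image.1 hb
  rw [add_assoc, add_eq_left] at hlb
  exact absurd (show ((l + 1 : ℕ) : Fin (m + 2)) = 0 by simpa using hlb)
    (natCast_ne_zero (by omega) (by rw [Finset.mem_range] at hl; omega))

theorem win_dd {k : ℕ} (h2 : k ≤ m + 2) (b : Fin (m + 2)) :
    win (dd m) k b = ((Real.exp (∑ i ∈ winSet k b, ee m i) : ℝ) : ℂ) := by
  rw [winSet, Finset.sum_image (natCast_injOn h2 b)]
  simp [win, dd, Real.exp_sum, Complex.ofReal_prod, Complex.ofReal_exp]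

theorem win_dd_injective {k : ℕ} (h1 : 1 ≤ k) (h2 : k < m + 2) :
    Function.Injective (win (dd m) k) := by
  intro b b' h
  rw [win_dd h2.le, win_dd h2.le, Complex.ofReal_inj, Real.exp_eq_exp] at h
  refine winSet_injective h1 h2 ?_
  have hc : ∀ b, (winSet k b).card = k := fun b => by
    rw [winSet, Finset.card_image_of_injOn (natCast_injOn h2.le b), Finset.card_range]
  simp only [ee, Finset.sum_sub_distrib, Finset.sum_const, hc, sub_left_inj] at h
  refine Finset.image_injective Fin.val_injective (Finset.geomSum_injective le_rfl ?_)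
  simp only [Finset.sum_image (Fin.val_injective.injOn)]
  exact_mod_cast h

theorem win_dd_ne_zero (k : ℕ) (b : Fin (m + 2)) : win (dd m) k b ≠ 0 :=
  Finset.prod_ne_zero_iff.2 fun _ _ => dd_ne_zero _

/-- If all power sums of the `v b` with distinct weights lie in `W`, so does each `v b`. -/
theorem mem_of_powers {ι E : Type*} [Fintype ι] [DecidableEq ι] [AddCommGroup E] [Module ℂ E]
    (W : Submodule ℂ E) (z : ι → ℂ) (hz : Function.Injective z) (v : ι → E)
    (h : ∀ k : ℕ, ∑ b, z b ^ k • v b ∈ W) (b : ι) : v b ∈ W := by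
  let p : Polynomial ℂ := Lagrange.basis Finset.univ z b
  have h1 : ∑ b', p.eval (z b') • v b' ∈ W := by
    simp only [Polynomial.eval_eq_sum_range, Finset.sum_smul]
    rw [Finset.sum_comm]
    refine W.sum_mem fun k _ => ?_
    simp only [mul_smul, ← Finset.smul_sum]
    exact W.smul_mem _ (h k)
  rwa [Finset.sum_eq_single b, Lagrange.eval_basis_self hz.injOn (Finset.mem_univ b), one_smul] at h1
  · intro b' _ hb'
    rw [Lagrange.eval_basis_of_ne (Ne.symm hb') (Finset.mem_univ b'), zero_smul]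
  · simp

end Vale.Agent.P002
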