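import Vale.Agent.P002.Generic

/-!
Compositions of flows stay in the closure near a base point of the locus, and their image is a
neighbourhood in the representation variety when the differential is large enough.
-/

namespace Vale.Agent.P002

open Matrix Complex Filter Topology
open scoped Matrix.Norms.Operator

variable {n r : ℕ}

/-- The tuple with given coordinates, linearly. -/
def ofCoords (n r : ℕ) : (Var n r → ℂ) →ₗ[ℂ] Tup n (Mat r ℂ) where
  toFun v := (fun i => Matrix.of fun j k => v (Sum.inl (i, j, k)),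
    fun i => Matrix.of fun j k => v (Sum.inr (i, j, k)))
  map_add' _ _ := rfl
  map_smul' _ _ := rfl

/-- The coordinates, linearly. -/
def coordsL (n r : ℕ) : Tup n (Mat r ℂ) →ₗ[ℂ] (Var n r → ℂ) where
  toFun := coords
  map_add' p q := by funext v; rcases v with v | v <;> rfl
  map_smul' c p := by funext v; rcases v with v | v <;> rfl

theorem contDiff_coords (v : Var n r) :
    ContDiff ℂ 1 (fun p : Tup n (Mat r ℂ) => coords p v) :=
  ((LinearMap.proj v).comp (coordsL n r)).toContinuousLinearMap.contDiff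

theorem contDiff_eval (P : MvPolynomial (Var n r) ℂ) :
    ContDiff ℂ 1 (fun p : Tup n (Mat r ℂ) => MvPolynomial.eval (coords p) P) := by
  induction P using MvPolynomial.induction_on with
  | C a => simpa using contDiff_const
  | add P Q hP hQ => simpa using hP.add hQ
  | mul_X P v hP => simpa using hP.mul (contDiff_coords v)

theorem contDiff_natural (F : ∀ (R : Type) [CommRing R], Tup n (Mat r R) → Tup n (Mat r R))
    (hF : ∀ (R S : Type) [CommRing R] [CommRing S] (φ : R →+* S) (p : Tup n (Mat r R)),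
      F S (mapR φ p) = mapR φ (F R p)) :
    ContDiff ℂ 1 (F ℂ) := by
  have h : F ℂ = fun p => ofCoords n r
      (fun v => MvPolynomial.eval (coords p) (coords (F _ (gen n r)) v)) := by
    funext p
    rw [← coords_natural F hF p]
    rfl
  rw [h]
  exact (ofCoords n r).toContinuousLinearMap.contDiff.comp
    (contDiff_pi.2 fun v => contDiff_eval _)

theorem isClosed_zset : IsClosed (Zset n r) := by
  have : Zset n r = ⋂ f : MvPolynomial (Var n r) ℂ,
      {p | (∀ q : Tup n (Mat r ℤ), IsRep q → MvPolynomial.eval (coords (castC q)) f = 0) →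
        MvPolynomial.eval (coords p) f = 0} := by
    ext p; simp [Zset]
  rw [this]
  refine isClosed_iInter fun f => ?_
  by_cases h : ∀ q : Tup n (Mat r ℤ), IsRep q → MvPolynomial.eval (coords (castC q)) f = 0
  · have e : {p : Tup n (Mat r ℂ) |
        (∀ q : Tup n (Mat r ℤ), IsRep q → MvPolynomial.eval (coords (castC q)) f = 0) →
          MvPolynomial.eval (coords p) f = 0} = {p | MvPolynomial.eval (coords p) f = 0} :=
      Set.ext fun p => ⟨fun hp => hp h, fun hp _ => hp⟩
    rw [e]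
    exact isClosed_eq (contDiff_eval f).continuous continuous_const
  · have e : {p : Tup n (Mat r ℂ) |
        (∀ q : Tup n (Mat r ℤ), IsRep q → MvPolynomial.eval (coords (castC q)) f = 0) →
          MvPolynomial.eval (coords p) f = 0} = Set.univ :=
      Set.eq_univ_of_forall fun p hp => absurd hp h
    rw [e]
    exact isClosed_univ

theorem contDiff_pw (k : ℕ) : ContDiff ℂ 1 (fun a : Mat r ℂ => pw a k) := by
  have ht : ContDiff ℂ 1 (fun a : Mat r ℂ => a.trace) :=
    (Matrix.traceLinearMap (Fin r) ℂ ℂ).toContinuousLinearMap.contDiff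
  have hk : ContDiff ℂ 1 (fun a : Mat r ℂ => a ^ k) := contDiff_id.pow k
  exact hk.sub (((ht.comp hk).div_const _).smul contDiff_const)

theorem contDiff_exp : ContDiff ℂ 1 (NormedSpace.exp : Mat r ℂ → Mat r ℂ) :=
  contDiff_iff_contDiffAt.2 fun x =>
    (NormedSpace.exp_analytic (𝕂 := ℂ) x).contDiffAt

theorem contDiff_flow (i : Fin n) (k : ℕ) :
    ContDiff ℂ 1 (fun x : ℂ × Tup n (Mat r ℂ) => flow i k x.1 x.2) := by
  refine (contDiff_snd.fst).prodMk (contDiff_pi.2 fun j => ?_)
  have hb : ∀ j, ContDiff ℂ 1 (fun x : ℂ × Tup n (Mat r ℂ) => x.2.2 j) := fun j =>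
    (contDiff_apply ℂ (Mat r ℂ) j).comp contDiff_snd.snd
  by_cases h : j = i
  · subst h
    simp only [Function.update_self]
    exact (hb j).mul (contDiff_exp.comp (contDiff_fst.smul ((contDiff_pw k).comp
      ((contDiff_apply ℂ (Mat r ℂ) j).comp contDiff_snd.fst))))
  · simp only [Function.update_of_ne h]
    exact hb j

theorem flow_zero (i : Fin n) (k : ℕ) (p : Tup n (Mat r ℂ)) : flow i k 0 p = p := by
  simp [flow]

/-- A move which maps the locus to itself. -/
def OnLocus (m : Move n r) : Prop :=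
  ∀ A : Fin n → Mat r ℂ, (∀ i, (A i).det = 1) →
    (∃ A' : Fin n → Mat r ℂ, m.f ℂ (locus A) = locus A') ∧
      ∃ A' : Fin n → Mat r ℂ, m.f' ℂ (locus A) = locus A'

/-- A twist flow seen through a move. -/
structure Flw (n r : ℕ) where
  /-- The move. -/
  m : Move n r
  /-- The handle. -/
  i : Fin n
  /-- The power. -/
  k : ℕ
  onLocus : OnLocus m

/-- The flow itself. -/
noncomputable def Flw.step (F : Flw n r) (s : ℂ) (p : Tup n (Mat r ℂ)) : Tup n (Mat r ℂ) :=
  F.m.f' ℂ (flow F.i F.k s (F.m.f ℂ p))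

theorem Flw.contDiff_step (F : Flw n r) :
    ContDiff ℂ 1 (fun x : ℂ × Tup n (Mat r ℂ) => F.step x.1 x.2) :=
  (contDiff_natural F.m.f' F.m.natural').comp ((contDiff_flow F.i F.k).comp
    (contDiff_fst.prodMk ((contDiff_natural F.m.f F.m.natural).comp contDiff_snd)))

theorem Flw.step_zero (F : Flw n r) (p : Tup n (Mat r ℂ)) (hp : DetOne p) : F.step 0 p = p := by
  rw [Flw.step, flow_zero, F.m.left_inv ℂ p hp]

/-- The parameters: a deformation of the base point and one time for each flow. -/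
abbrev Prm (n r N : ℕ) : Type := (Fin n → Mat r ℂ) × (Fin N → ℂ)

/-- The deformed base point. -/
noncomputable def base (A0 : Fin n → Mat r ℂ) (α : Fin n → Mat r ℂ) : Fin n → Mat r ℂ :=
  fun i => A0 i * NormedSpace.exp (pw (α i) 1)

theorem det_base (A0 : Fin n → Mat r ℂ) (hA0 : ∀ i, (A0 i).det = 1) (α : Fin n → Mat r ℂ)
    (i : Fin n) : (base A0 α i).det = 1 := by
  rcases Nat.eq_zero_or_pos r with h0 | h0
  · subst h0; simp
  rw [base, det_mul, hA0, det_exp, trace_pw h0.ne', Complex.exp_zero, one_mul]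

theorem base_zero (A0 : Fin n → Mat r ℂ) : base A0 0 = A0 := by
  funext i; simp [base, pw]

/-- The composite of the first `k` flows. -/
noncomputable def psi {N : ℕ} (A0 : Fin n → Mat r ℂ) (fl : Fin N → Flw n r) :
    ℕ → Prm n r N → Tup n (Mat r ℂ)
  | 0, x => locus (base A0 x.1)
  | k + 1, x => if h : k < N then (fl ⟨k, h⟩).step (x.2 ⟨k, h⟩) (psi A0 fl k x)
      else psi A0 fl k x

variable {N : ℕ} (A0 : Fin n → Mat r ℂ) (fl : Fin N → Flw n r)

theorem contDiff_base : ContDiff ℂ 1 (base A0) :=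
  contDiff_pi.2 fun i => contDiff_const.mul (contDiff_exp.comp
    ((contDiff_pw 1).comp (contDiff_apply ℂ (Mat r ℂ) i)))

theorem contDiff_locus : ContDiff ℂ 1 (fun A : Fin n → Mat r ℂ => locus A) :=
  contDiff_id.prodMk contDiff_const

theorem contDiff_psi : ∀ k, ContDiff ℂ 1 (psi A0 fl k)
  | 0 => contDiff_locus.comp ((contDiff_base A0).comp contDiff_fst)
  | k + 1 => by
    by_cases h : k < N
    · have e : psi A0 fl (k + 1) =
          fun x => (fl ⟨k, h⟩).step (x.2 ⟨k, h⟩) (psi A0 fl k x) := by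
        funext x; simp [psi, h]
      rw [e]
      exact (fl ⟨k, h⟩).contDiff_step.comp
        (((contDiff_apply ℂ ℂ (⟨k, h⟩ : Fin N)).comp contDiff_snd).prodMk (contDiff_psi k))
    · have e : psi A0 fl (k + 1) = psi A0 fl k := by funext x; simp [psi, h]
      rw [e]
      exact contDiff_psi k

theorem psi_zero (hA0 : ∀ i, (A0 i).det = 1) (α : Fin n → Mat r ℂ) :
    ∀ k, psi A0 fl k (α, 0) = locus (base A0 α)
  | 0 => rfl
  | k + 1 => by
    have h1 := psi_zero hA0 α k
    unfold psi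
    by_cases h : k < N
    · rw [dif_pos h, h1]
      exact (fl ⟨k, h⟩).step_zero _ ⟨det_base A0 hA0 α, fun _ => det_one⟩
    · rw [dif_neg h, h1]

/-- The derivative of the determinant along a curve. -/
theorem hasDerivAt_det {γ : ℂ → Mat r ℂ} {η : Mat r ℂ} (hγ : HasDerivAt γ η 0)
    (h0 : IsUnit (γ 0).det) :
    HasDerivAt (fun t => (γ t).det) ((γ 0).det * ((γ 0)⁻¹ * η).trace) 0 := by
  have hd : Differentiable ℂ (fun a : Mat r ℂ => a.det) := by
    simp only [Matrix.det_apply]
    refine Differentiable.fun_sum fun σ _ => ?_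
    have hu : ∀ u : Finset (Fin r), Differentiable ℂ (fun a : Mat r ℂ => ∏ i ∈ u, a (σ i) i) := by
      intro u
      induction u using Finset.induction with
      | empty => simpa using differentiable_const (1 : ℂ)
      | @insert i u hi ih =>
        simp only [Finset.prod_insert hi]
        exact ((Matrix.entryLinearMap ℂ ℂ (σ i) i).toContinuousLinearMap.differentiable).mul ih
    have h : Differentiable ℂ (fun a : Mat r ℂ => ∏ i, a (σ i) i) := hu Finset.univ
    exact h.const_smul _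
  have h1 := (hd (γ 0)).hasFDerivAt.comp_hasDerivAt 0 hγ
  have hline : HasDerivAt (fun t : ℂ => γ 0 + t • η) η 0 := by
    have h := ((hasDerivAt_id (0 : ℂ)).smul_const η).const_add (γ 0)
    rwa [one_smul] at h
  have h2 : HasDerivAt (fun t : ℂ => (γ 0 + t • η).det)
      (fderiv ℂ (fun a : Mat r ℂ => a.det) (γ 0) η) 0 :=
    ((by rw [zero_smul, add_zero]; exact (hd (γ 0)).hasFDerivAt :
      HasFDerivAt (fun a : Mat r ℂ => a.det)
      (fderiv ℂ (fun a : Mat r ℂ => a.det) (γ 0)) (γ 0 + (0 : ℂ) • η))).comp_hasDerivAt 0 hline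
  let Q := (det (1 + (Polynomial.X : Polynomial ℂ) • ((γ 0)⁻¹ * η).map Polynomial.C)).divX.divX
  have h3 : HasDerivAt (fun t : ℂ => (γ 0 + t • η).det)
      ((γ 0).det * ((γ 0)⁻¹ * η).trace) 0 := by
    have e : (fun t : ℂ => (γ 0 + t • η).det) = fun t => (γ 0).det *
        (1 + ((γ 0)⁻¹ * η).trace * t + Q.eval t * t ^ 2) := by
      funext t
      rw [← Matrix.det_one_add_smul t ((γ 0)⁻¹ * η), ← det_mul]
      congr 1
      rw [mul_add, mul_one, Matrix.mul_smul, ← mul_assoc, Matrix.mul_nonsing_inv _ h0, one_mul]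
    rw [e]
    simpa using ((((hasDerivAt_id (0 : ℂ)).const_mul ((γ 0)⁻¹ * η).trace).const_add 1).add
      ((Q.hasDerivAt 0).mul ((hasDerivAt_id (0 : ℂ)).pow 2))).const_mul (γ 0).det
  rw [← h2.unique h3]
  exact h1

theorem trace_eq_zero_of_det {γ : ℂ → Mat r ℂ} {η : Mat r ℂ} (hγ : HasDerivAt γ η 0)
    (h0 : ∀ t, (γ t).det = 1) : ((γ 0)⁻¹ * η).trace = 0 := by
  have h := hasDerivAt_det hγ (by rw [h0]; exact isUnit_one)
  simp only [h0, one_mul] at h
  exact (h.unique (hasDerivAt_const 0 (1 : ℂ)))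

theorem pw_one_of_trace {a : Mat r ℂ} (h : a.trace = 0) : pw a 1 = a := by simp [pw, h]

theorem hasDerivAt_exp_smul (X : Mat r ℂ) :
    HasDerivAt (fun t : ℂ => NormedSpace.exp (t • X)) X 0 := by
  have h := hasDerivAt_exp_smul_const (𝕂 := ℂ) X 0
  rwa [zero_smul, NormedSpace.exp_zero, one_mul] at h

theorem hasDerivAt_base_line (α : Fin n → Mat r ℂ) (hα : ∀ i, (α i).trace = 0) :
    HasDerivAt (fun t : ℂ => base A0 (t • α)) (fun i => A0 i * α i) 0 := by
  refine hasDerivAt_pi.2 fun i => ?_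
  have h : ∀ t : ℂ, base A0 (t • α) i = A0 i * NormedSpace.exp (t • α i) := fun t => by
    simp only [base, Pi.smul_apply]
    rw [pw_one_of_trace (by simp [hα i])]
  simp only [h]
  exact (hasDerivAt_exp_smul (α i)).const_mul (A0 i)

/-- The rescaled matrix of the next flow has surjective differential at the base point. -/
theorem surjective_slot (hr : r ≠ 0) (hA0 : ∀ i, (A0 i).det = 1) (F : Flw n r) (k : ℕ) :
    ∃ D : Prm n r N × ℂ →L[ℂ] Mat r ℂ,
      HasStrictFDerivAt (fun y : Prm n r N × ℂ =>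
        cexp y.2 • (F.m.f ℂ (psi A0 fl k y.1)).1 F.i) D 0 ∧ Function.Surjective D := by
  set G : Prm n r N × ℂ → Mat r ℂ := fun y => cexp y.2 • (F.m.f ℂ (psi A0 fl k y.1)).1 F.i with hG
  set Fm : (Fin n → Mat r ℂ) → Mat r ℂ := fun A => (F.m.f ℂ (locus A)).1 F.i with hFm
  have hcf : ContDiff ℂ 1 (fun x : Tup n (Mat r ℂ) => (F.m.f ℂ x).1 F.i) :=
    (contDiff_apply ℂ (Mat r ℂ) F.i).comp (contDiff_natural F.m.f F.m.natural).fst
  have hGd : ContDiff ℂ 1 G := (Complex.contDiff_exp.comp contDiff_snd).smul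
    ((hcf.comp (contDiff_psi A0 fl k)).comp contDiff_fst)
  refine ⟨fderiv ℂ G 0, hGd.contDiffAt.hasStrictFDerivAt one_ne_zero, fun Y => ?_⟩
  obtain ⟨ν, hν⟩ := (F.onLocus A0 hA0).1
  have hνd : ∀ i, (ν i).det = 1 := by
    have := (F.m.det_f ℂ (locus A0) ⟨hA0, fun _ => det_one⟩).1
    rw [hν] at this
    exact this
  set a0 := ν F.i with ha0
  have hu : IsUnit a0.det := by rw [ha0, hνd]; exact isUnit_one
  set c0 := (a0⁻¹ * Y).trace / (r : ℂ) with hc0
  set X := a0⁻¹ * Y - c0 • (1 : Mat r ℂ) with hX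
  have hXt : X.trace = 0 := by
    simp [hX, hc0, trace_smul, trace_one, hr]
  -- a curve in the special linear group through `A0`
  let γ : ℂ → Fin n → Mat r ℂ := fun t =>
    (F.m.f' ℂ (locus (Function.update ν F.i (a0 * NormedSpace.exp (t • X))))).1
  have hupd : ∀ (t : ℂ) i, (Function.update ν F.i (a0 * NormedSpace.exp (t • X)) i).det = 1 := by
    intro t i
    by_cases h : i = F.i
    · subst h
      rw [Function.update_self, det_mul, det_exp]
      simp [ha0, hνd, hXt]
    · rw [Function.update_of_ne h]; exact hνd i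
  have hγd : ∀ t i, (γ t i).det = 1 := fun t =>
    (F.m.det_f' ℂ _ ⟨hupd t, fun _ => det_one⟩).1
  have hγ0 : γ 0 = A0 := by
    have e : locus (Function.update ν F.i (a0 * NormedSpace.exp ((0 : ℂ) • X))) =
        F.m.f ℂ (locus A0) := by
      rw [hν]; simp [ha0]
    simp only [γ, e, F.m.left_inv ℂ (locus A0) ⟨hA0, fun _ => det_one⟩]
    rfl
  have hγdiff : DifferentiableAt ℂ γ 0 := by
    have h : Differentiable ℂ (fun p => (F.m.f' ℂ p).1) :=
      (contDiff_natural F.m.f' F.m.natural').fst.differentiable one_ne_zero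
    refine (h _).comp 0 (DifferentiableAt.comp 0
      (contDiff_locus.differentiable one_ne_zero _) (differentiableAt_pi.2 fun i => ?_))
    by_cases h : i = F.i
    · subst h
      simp only [Function.update_self]
      exact ((hasDerivAt_exp_smul X).differentiableAt).const_mul a0
    · simp only [Function.update_of_ne h]
      exact differentiableAt_const _
  set η := deriv γ 0 with hη
  set α : Fin n → Mat r ℂ := fun i => (A0 i)⁻¹ * η i with hα
  have hαt : ∀ i, (α i).trace = 0 := fun i => by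
    have h := hasDerivAt_pi.1 hγdiff.hasDerivAt i
    have := trace_eq_zero_of_det h fun t => hγd t i
    rwa [hγ0] at this
  have hline : HasDerivAt (fun t : ℂ => base A0 (t • α)) η 0 := by
    convert hasDerivAt_base_line A0 α hαt using 1
    funext i
    simp only [hα, ← mul_assoc]
    rw [Matrix.mul_nonsing_inv _ (by rw [hA0]; exact isUnit_one), one_mul]
  have hFmd : DifferentiableAt ℂ Fm A0 :=
    ((hcf.comp contDiff_locus).differentiable one_ne_zero) A0
  have hFmγ : HasDerivAt (fun t => Fm (γ t)) (a0 * X) 0 := by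
    have e : ∀ t, Fm (γ t) = a0 * NormedSpace.exp (t • X) := by
      intro t
      obtain ⟨A', hA'⟩ := (F.onLocus _ (hupd t)).2
      have h1 : locus (γ t) = locus A' := by simp only [γ, hA']; rfl
      simp only [hFm, h1, ← hA']
      have hr' := F.m.right_inv ℂ (locus (Function.update ν F.i (a0 * NormedSpace.exp (t • X))))
        ⟨hupd t, fun _ => det_one⟩
      rw [hr']
      simp [locus]
    simp only [e]
    exact (hasDerivAt_exp_smul X).const_mul a0
  have heq : fderiv ℂ Fm A0 η = a0 * X := by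
    have h2 : HasDerivAt (fun t => Fm (γ t)) (fderiv ℂ Fm A0 η) 0 :=
      ((by rw [hγ0]; exact hFmd.hasFDerivAt : HasFDerivAt Fm (fderiv ℂ Fm A0) (γ 0))
        ).comp_hasDerivAt 0 hγdiff.hasDerivAt
    exact h2.unique hFmγ
  refine ⟨((α, 0), c0), ?_⟩
  have hcurve : HasDerivAt (fun t : ℂ => G (t • (((α, 0), c0) : Prm n r N × ℂ)))
      (fderiv ℂ G 0 ((α, 0), c0)) 0 :=
    ((by rw [zero_smul]; exact (hGd.differentiable one_ne_zero 0).hasFDerivAt :
      HasFDerivAt G (fderiv ℂ G 0) ((0 : ℂ) • (((α, 0), c0) : Prm n r N × ℂ)))).comp_hasDerivAt 0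
      (f := fun t : ℂ => t • (((α, 0), c0) : Prm n r N × ℂ)) (by
        have h := (hasDerivAt_id (0 : ℂ)).smul_const (((α, 0), c0) : Prm n r N × ℂ)
        rwa [one_smul] at h)
  have hother : HasDerivAt (fun t : ℂ => G (t • (((α, 0), c0) : Prm n r N × ℂ))) Y 0 := by
    have e : (fun t : ℂ => G (t • (((α, 0), c0) : Prm n r N × ℂ))) =
        fun t => cexp (c0 * t) • Fm (base A0 (t • α)) := by
      funext t
      simp [hG, hFm, psi_zero A0 fl hA0, mul_comm]
    rw [e]
    have hb0 : base A0 ((0 : ℂ) • α) = A0 := by simp [base_zero]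
    have h1 : HasDerivAt (fun t : ℂ => cexp (c0 * t)) c0 0 := by
      simpa using ((hasDerivAt_id (0 : ℂ)).const_mul c0).cexp
    have h2 : HasDerivAt (fun t : ℂ => Fm (base A0 (t • α))) (a0 * X) 0 := by
      rw [← heq]
      have hF : HasFDerivAt Fm (fderiv ℂ Fm A0) (base A0 ((0 : ℂ) • α)) := by
        rw [hb0]; exact hFmd.hasFDerivAt
      exact (hF.comp_hasDerivAt 0 hline :)
    have hF0 : Fm (base A0 ((0 : ℂ) • α)) = a0 := by
      rw [hb0]; exact congrArg (fun p : Tup n (Mat r ℂ) => p.1 F.i) hν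
    have hY : Y = cexp (c0 * 0) • (a0 * X) + c0 • Fm (base A0 ((0 : ℂ) • α)) := by
      rw [hF0, mul_zero, Complex.exp_zero, one_smul, hX, mul_sub, ← mul_assoc,
        Matrix.mul_nonsing_inv _ hu, one_mul, Matrix.mul_smul, mul_one]
      abel
    rw [hY]
    exact h1.smul h2
  exact hcurve.unique hother

/-- Near the base point every composite of flows lies in the closure. -/
theorem eventually_psi_mem (hr : r ≠ 0) (hA0 : ∀ i, (A0 i).det = 1) :
    ∀ k, ∀ᶠ x in 𝓝 (0 : Prm n r N), psi A0 fl k x ∈ Zset n r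
  | 0 => Eventually.of_forall fun x => locus_mem_zset _ fun i => det_base A0 hA0 x.1 i
  | k + 1 => by
    have ih := eventually_psi_mem hr hA0 k
    unfold psi
    by_cases h : k < N
    swap
    · simpa [dif_neg h] using ih
    simp only [dif_pos h]
    set F := fl ⟨k, h⟩ with hF
    set G : Prm n r N × ℂ → Mat r ℂ := fun y => cexp y.2 • (F.m.f ℂ (psi A0 fl k y.1)).1 F.i
    obtain ⟨D, hD, hDs⟩ := surjective_slot A0 fl hr hA0 F k
    have hGd : ContDiff ℂ 1 G := (Complex.contDiff_exp.comp contDiff_snd).smul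
      ((((contDiff_apply ℂ (Mat r ℂ) F.i).comp
        (contDiff_natural F.m.f F.m.natural).fst).comp (contDiff_psi A0 fl k)).comp contDiff_fst)
    have hfd : fderiv ℂ G 0 = D := hD.hasFDerivAt.fderiv
    -- surjectivity of the differential is an open condition
    obtain ⟨Rinv, hRinv⟩ := D.exists_rightInverse_of_surjective (LinearMap.range_eq_top.2 hDs)
    have hev : ∀ᶠ y in 𝓝 (0 : Prm n r N × ℂ), Function.Surjective (fderiv ℂ G y) := by
      have hc : Continuous fun y => (fderiv ℂ G y).comp Rinv :=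
        ((ContinuousLinearMap.compL ℂ (Mat r ℂ) (Prm n r N × ℂ) (Mat r ℂ)).flip Rinv).continuous.comp
          (hGd.continuous_fderiv one_ne_zero)
      let bas := Module.finBasis ℂ (Mat r ℂ)
      let M : Prm n r N × ℂ → Matrix (Fin (Module.finrank ℂ (Mat r ℂ)))
          (Fin (Module.finrank ℂ (Mat r ℂ))) ℂ := fun y =>
        LinearMap.toMatrix bas bas ((fderiv ℂ G y).comp Rinv).toLinearMap
      have hM : Continuous M := continuous_pi fun i => continuous_pi fun j => by
        have h1 : Continuous fun y => ((fderiv ℂ G y).comp Rinv) (bas j) :=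
          hc.clm_apply continuous_const
        exact ((bas.coord i).continuous_of_finiteDimensional.comp h1).congr fun y => by
          simp [M, LinearMap.toMatrix_apply]
      have h1 : (M 0).det ≠ 0 := by
        simp only [M]
        rw [hfd, hRinv, LinearMap.det_toMatrix]
        simp
      filter_upwards [hM.matrix_det.continuousAt.eventually_ne h1] with y hy
      simp only [M, LinearMap.det_toMatrix] at hy
      intro Y
      obtain ⟨v, hv⟩ := ((LinearMap.isUnit_iff_range_eq_top _).1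
        ((LinearMap.isUnit_iff_isUnit_det _).2 (isUnit_iff_ne_zero.2 hy)) ▸
          Submodule.mem_top : Y ∈ ((fderiv ℂ G y).comp Rinv).toLinearMap.range)
      exact ⟨Rinv v, hv⟩
    have hev' : ∀ᶠ x in 𝓝 (0 : Prm n r N), Function.Surjective (fderiv ℂ G (x, 0)) :=
      (Continuous.tendsto (by fun_prop : Continuous fun x : Prm n r N => (x, (0 : ℂ))) 0).eventually
        hev
    obtain ⟨V, hV, hVo, hV0⟩ := eventually_nhds_iff.1 (ih.and hev')
    refine eventually_nhds_iff.2 ⟨V, fun x hx => ?_, hVo, hV0⟩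
    have hdense : x ∈ closure {x' | x' ∈ V ∧ Gen ((F.m.f ℂ (psi A0 fl k x')).1 F.i)} := by
      rw [mem_closure_iff]
      intro W hW hxW
      have hsur : Function.Surjective (fderiv ℂ G (x, 0)) := (hV x hx).2
      have hmap := HasStrictFDerivAt.map_nhds_eq_of_surj
        (hGd.contDiffAt.hasStrictFDerivAt (x := (x, (0 : ℂ))) one_ne_zero)
        (LinearMap.range_eq_top.2 hsur)
      have hnb : G '' (Prod.fst ⁻¹' (W ∩ V)) ∈ 𝓝 (G (x, 0)) := by
        have hm : G '' (Prod.fst ⁻¹' (W ∩ V)) ∈ Filter.map G (𝓝 (x, (0 : ℂ))) :=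
          image_mem_map (((hW.inter hVo).preimage continuous_fst).mem_nhds ⟨hxW, hx⟩)
        exact hmap ▸ hm
      obtain ⟨_, hgen, y, hy, rfl⟩ :=
        mem_closure_iff_nhds.1 (dense_gen (r := r) (G (x, 0))) _ hnb |>.imp fun _ hh =>
          And.intro hh.2 hh.1
      refine ⟨y.1, hy.1, hy.2, ?_⟩
      have := Gen.smul hgen (inv_ne_zero (Complex.exp_ne_zero y.2))
      rwa [smul_smul, inv_mul_cancel₀ (Complex.exp_ne_zero _), one_smul] at this
    have hcl : IsClosed ((fun x => F.step (x.2 ⟨k, h⟩) (psi A0 fl k x)) ⁻¹' Zset n r) :=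
      isClosed_zset.preimage ((F.contDiff_step.comp
        (((contDiff_apply ℂ ℂ (⟨k, h⟩ : Fin N)).comp contDiff_snd).prodMk
          (contDiff_psi A0 fl k))).continuous)
    refine hcl.closure_subset_iff.2 ?_ hdense
    rintro x' ⟨hx', hg⟩
    exact zset_move' F.m (zset_flow F.i F.k _ (zset_move F.m (hV x' hx').1) hg)

/-- The defining equations. -/
noncomputable def eqs (p : Tup n (Mat r ℂ)) : (Fin n → ℂ) × (Fin n → ℂ) × Mat r ℂ :=
  (fun i => (p.1 i).det, fun i => (p.2 i).det, rel adjugate p)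

theorem contDiff_eqs : ContDiff ℂ 1 (eqs : Tup n (Mat r ℂ) → _) := by
  have key : ∀ P : MvPolynomial (Var n r) ℂ, ContDiff ℂ 1
      (fun p : Tup n (Mat r ℂ) => MvPolynomial.eval (coords p) P) := contDiff_eval
  refine ContDiff.prodMk (contDiff_pi.2 fun i => ?_) (ContDiff.prodMk (contDiff_pi.2 fun i => ?_) ?_)
  · convert key ((gen n r).1 i).det using 2 with p
    rw [RingHom.map_det]
    exact congrArg (fun y : Tup n (Mat r ℂ) => (y.1 i).det) (mapR_gen p).symm
  · convert key ((gen n r).2 i).det using 2 with p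
    rw [RingHom.map_det]
    exact congrArg (fun y : Tup n (Mat r ℂ) => (y.2 i).det) (mapR_gen p).symm
  · have h : (fun p : Tup n (Mat r ℂ) => rel adjugate p) = fun p =>
        (Matrix.ofLinearEquiv ℂ : (Fin r → Fin r → ℂ) ≃ₗ[ℂ] Mat r ℂ)
          (fun j k => MvPolynomial.eval (coords p) (rel adjugate (gen n r) j k)) := by
      funext p
      ext j k
      have := rel_map (MvPolynomial.eval (coords p)).mapMatrix.toMonoidHom adjugate adjugate
        (fun a => (MvPolynomial.eval (coords p)).map_adjugate a) (gen n r)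
      refine Eq.trans ?_ (congrFun (congrFun this j) k)
      exact congrArg (fun y => rel adjugate y j k) (mapR_gen p).symm
    change ContDiff ℂ 1 (fun p : Tup n (Mat r ℂ) => rel adjugate p)
    rw [h]
    exact ((Matrix.ofLinearEquiv ℂ : (Fin r → Fin r → ℂ) ≃ₗ[ℂ] Mat r ℂ
      ).toLinearMap.toContinuousLinearMap).contDiff.comp
      (contDiff_pi.2 fun j => contDiff_pi.2 fun k => key _)

theorem eqs_of_isRep {p : Tup n (Mat r ℂ)} (hp : IsRep p) : eqs p = (1, 1, 1) :=
  Prod.ext (funext hp.1.1) (Prod.ext (funext hp.1.2) hp.2)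

/-- If the equations see every direction outside the range of the differential of `Ψ`, then near
`Ψ 0` the level set of the equations is covered by the image of `Ψ`. -/
theorem exists_open_level {E F H : Type*} [NormedAddCommGroup E] [NormedSpace ℂ E]
    [FiniteDimensional ℂ E] [NormedAddCommGroup F] [NormedSpace ℂ F] [FiniteDimensional ℂ F]
    [NormedAddCommGroup H] [NormedSpace ℂ H] [FiniteDimensional ℂ H] {Ψ : E → F} {g : F → H}
    {D : E →L[ℂ] F} {Dg : F →L[ℂ] H} (hΨ : HasStrictFDerivAt Ψ D 0)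
    (hg : HasStrictFDerivAt g Dg (Ψ 0)) (hΨc : Continuous Ψ)
    (hK : ∀ e, Dg e = 0 → ∃ v, D v = e) (c : H) (Z : Set F)
    (hZ : ∀ᶠ x in 𝓝 0, Ψ x ∈ Z ∧ g (Ψ x) = c) :
    ∃ U : Set F, IsOpen U ∧ Ψ 0 ∈ U ∧ ∀ q ∈ U, g q = c → q ∈ Z := by
  obtain ⟨C, hC⟩ := Submodule.exists_isCompl (LinearMap.range D.toLinearMap)
  let L : E × C →L[ℂ] F := D.comp (ContinuousLinearMap.fst ℂ E C) +
      C.subtypeL.comp (ContinuousLinearMap.snd ℂ E C)
  have hΦd : HasStrictFDerivAt (fun y : E × C => Ψ y.1 + (y.2 : F)) L 0 :=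
    (HasStrictFDerivAt.comp (x := (0 : E × C)) hΨ hasStrictFDerivAt_fst).add
      (C.subtypeL.comp (ContinuousLinearMap.snd ℂ E C)).hasStrictFDerivAt
  have hsur : Function.Surjective L := by
    intro y
    obtain ⟨t, ht, d, hd, rfl⟩ := Submodule.mem_sup.1 (hC.sup_eq_top ▸ Submodule.mem_top (x := y))
    obtain ⟨v, rfl⟩ := ht
    exact ⟨(v, ⟨d, hd⟩), rfl⟩
  have hinj : Function.Injective (Dg.comp C.subtypeL) := by
    rw [injective_iff_map_eq_zero]
    intro d hd
    obtain ⟨v, hv⟩ := hK d hd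
    have : (d : F) ∈ LinearMap.range D.toLinearMap ⊓ C := ⟨⟨v, hv⟩, d.2⟩
    rw [hC.inf_eq_bot, Submodule.mem_bot] at this
    exact Subtype.ext this
  obtain ⟨K, hK0, hKa⟩ := (Dg.comp C.subtypeL).toLinearMap.exists_antilipschitzWith
    (LinearMap.ker_eq_bot.2 hinj)
  have hεpos : (0 : ℝ) < (2 * (K : ℝ))⁻¹ := by positivity
  obtain ⟨S, hS0, hSo, hS⟩ : ∃ S : Set F, Ψ 0 ∈ S ∧ IsOpen S ∧
      ∀ a ∈ S, ∀ b ∈ S, ‖g a - g b - Dg (a - b)‖ ≤ (2 * (K : ℝ))⁻¹ * ‖a - b‖ := by
    have := hg.isLittleO.def hεpos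
    rw [nhds_prod_eq, Filter.Eventually, mem_prod_same_iff] at this
    obtain ⟨s, hs, hss⟩ := this
    obtain ⟨S, hSs, hSo, hS0⟩ := mem_nhds_iff.1 hs
    exact ⟨S, hS0, hSo, fun a ha b hb => hss (Set.mk_mem_prod (hSs ha) (hSs hb))⟩
  obtain ⟨W, hW, hWo, hW0⟩ := eventually_nhds_iff.1 hZ
  have hΦc : Continuous fun y : E × C => Ψ y.1 + (y.2 : F) :=
    (hΨc.comp continuous_fst).add (continuous_subtype_val.comp continuous_snd)
  have hΦ0 : Ψ (0 : E × C).1 + ((0 : E × C).2 : F) = Ψ 0 := by simp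
  have hO : {y : E × C | y.1 ∈ W ∧ Ψ y.1 ∈ S ∧ Ψ y.1 + (y.2 : F) ∈ S} ∈ 𝓝 (0 : E × C) :=
    ((hWo.preimage continuous_fst).inter ((hSo.preimage (hΨc.comp continuous_fst)).inter
      (hSo.preimage hΦc))).mem_nhds ⟨hW0, hS0, show Ψ (0 : E × C).1 + ((0 : E × C).2 : F) ∈ S by
        rw [hΦ0]; exact hS0⟩
  have hnb := hΦd.map_nhds_eq_of_surj (LinearMap.range_eq_top.2 hsur) ▸ image_mem_map hO
  obtain ⟨U, hUO, hUo, hU0⟩ := mem_nhds_iff.1 hnb
  refine ⟨U, hUo, hΦ0 ▸ hU0, fun q hq hgq => ?_⟩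
  obtain ⟨⟨x, d⟩, ⟨hxW, hxS, hxcS⟩, rfl⟩ := hUO hq
  obtain ⟨hxZ, hxc⟩ := hW x hxW
  have hb := hS _ hxcS _ hxS
  simp only [add_sub_cancel_left] at hb hgq
  rw [hgq, hxc, sub_self, zero_sub, norm_neg] at hb
  have hl : ‖d‖ ≤ K * ‖(Dg.comp C.subtypeL) d‖ := by
    simpa using hKa.le_mul_dist d 0
  have hK' : (0 : ℝ) < K := by exact_mod_cast hK0
  have hd0 : d = 0 := by
    rw [← norm_le_zero_iff]
    have e : ‖(d : F)‖ = ‖d‖ := rfl
    change ‖d‖ ≤ K * ‖Dg (d : F)‖ at hl
    have : (K : ℝ) * ((2 * (K : ℝ))⁻¹ * ‖d‖) = ‖d‖ / 2 := by field_simp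
    nlinarith [mul_le_mul_of_nonneg_left hb hK'.le, norm_nonneg d]
  simpa [hd0] using hxZ

theorem psi_origin (hA0 : ∀ i, (A0 i).det = 1) : psi A0 fl N 0 = locus A0 := by
  rw [show (0 : Prm n r N) = (0, 0) from rfl, psi_zero A0 fl hA0, base_zero]

/-- If the flows span the tangent space, a neighbourhood of the base point in the representation
variety lies in the closure. -/
theorem exists_open_subset_zset (hr : r ≠ 0) (hA0 : ∀ i, (A0 i).det = 1)
    (hK : ∀ e, fderiv ℂ eqs (locus A0) e = 0 →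
      ∃ v, fderiv ℂ (psi A0 fl N) 0 v = e) :
    ∃ U : Set (Tup n (Mat r ℂ)), IsOpen U ∧ locus A0 ∈ U ∧
      ∀ q ∈ U, IsRep q → q ∈ Zset n r := by
  have h1 : HasStrictFDerivAt (psi A0 fl N) (fderiv ℂ (psi A0 fl N) 0) 0 :=
    (contDiff_psi A0 fl N).contDiffAt.hasStrictFDerivAt one_ne_zero
  have h2 : HasStrictFDerivAt eqs (fderiv ℂ eqs (locus A0)) (psi A0 fl N 0) := by
    rw [psi_origin A0 fl hA0]
    exact contDiff_eqs.contDiffAt.hasStrictFDerivAt one_ne_zero
  have h3 : ∀ᶠ x in 𝓝 0, psi A0 fl N x ∈ Zset n r ∧ eqs (psi A0 fl N x) = (1, 1, 1) :=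
    (eventually_psi_mem A0 fl hr hA0 N).mono fun x hx => ⟨hx, eqs_of_isRep (isRep_of_mem_zset hx)⟩
  obtain ⟨U, hUo, hU0, hU⟩ :=
    exists_open_level h1 h2 (contDiff_psi A0 fl N).continuous hK (1, 1, 1) (Zset n r) h3
  exact ⟨U, hUo, psi_origin A0 fl hA0 ▸ hU0, fun q hq hrep => hU q hq (eqs_of_isRep hrep)⟩

end Vale.Agent.P002
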