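import Vale.Agent.P002.Rep

/-!
The Zariski closure of the integral representations inside the complex tuples.
-/

namespace Vale.Agent.P002

open Matrix MvPolynomial

variable {n r : ℕ}

/-- The coordinates of a tuple of matrices. -/
abbrev Var (n r : ℕ) : Type := (Fin n × Fin r × Fin r) ⊕ (Fin n × Fin r × Fin r)

/-- The coordinate functions. -/
def coords {R : Type*} (p : Tup n (Mat r R)) : Var n r → R :=
  Sum.elim (fun v => p.1 v.1 v.2.1 v.2.2) (fun v => p.2 v.1 v.2.1 v.2.2)

/-- The generic tuple. -/
noncomputable def gen (n r : ℕ) : Tup n (Mat r (MvPolynomial (Var n r) ℂ)) :=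
  (fun i => Matrix.of fun j k => X (Sum.inl (i, j, k)),
    fun i => Matrix.of fun j k => X (Sum.inr (i, j, k)))

/-- The complex tuple of an integral one. -/
def castC (q : Tup n (Mat r ℤ)) : Tup n (Mat r ℂ) := mapR (Int.castRingHom ℂ) q

/-- The Zariski closure of the integral representations. -/
def Zset (n r : ℕ) : Set (Tup n (Mat r ℂ)) :=
  {p | ∀ f : MvPolynomial (Var n r) ℂ,
    (∀ q : Tup n (Mat r ℤ), IsRep q → eval (coords (castC q)) f = 0) → eval (coords p) f = 0}

theorem mapR_gen (p : Tup n (Mat r ℂ)) : mapR (eval (coords p)) (gen n r) = p := by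
  refine Prod.ext (funext fun i => ?_) (funext fun i => ?_) <;> ext j k <;>
    simp [mapR, mapTup, gen, coords]

theorem det_castC (q : Tup n (Mat r ℤ)) (hq : DetOne q) : DetOne (castC q) :=
  ⟨fun i => by
      change (((Int.castRingHom ℂ).mapMatrix (q.1 i))).det = 1
      rw [← RingHom.map_det, hq.1 i, map_one],
    fun i => by
      change (((Int.castRingHom ℂ).mapMatrix (q.2 i))).det = 1
      rw [← RingHom.map_det, hq.2 i, map_one]⟩

theorem coords_mapR {R S : Type*} [CommRing R] [CommRing S] (φ : R →+* S) (p : Tup n (Mat r R)) :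
    coords (mapR φ p) = φ ∘ coords p := by
  funext v
  rcases v with v | v <;> simp [coords, mapR, mapTup]

/-- A natural family of maps is given by polynomials. -/
theorem coords_natural (F : ∀ (R : Type) [CommRing R], Tup n (Mat r R) → Tup n (Mat r R))
    (hF : ∀ (R S : Type) [CommRing R] [CommRing S] (φ : R →+* S) (p : Tup n (Mat r R)),
      F S (mapR φ p) = mapR φ (F R p))
    (p : Tup n (Mat r ℂ)) :
    coords (F ℂ p) = fun v => eval (coords p) (coords (F _ (gen n r)) v) := by
  conv_lhs => rw [← mapR_gen p, hF _ _ (eval (coords p)) (gen n r)]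
  rw [coords_mapR]
  rfl

/-- A natural family of maps which preserves integral representations preserves the closure. -/
theorem zset_natural (F : ∀ (R : Type) [CommRing R], Tup n (Mat r R) → Tup n (Mat r R))
    (hF : ∀ (R S : Type) [CommRing R] [CommRing S] (φ : R →+* S) (p : Tup n (Mat r R)),
      F S (mapR φ p) = mapR φ (F R p))
    (hrep : ∀ q : Tup n (Mat r ℤ), IsRep q → IsRep (F ℤ q))
    {p : Tup n (Mat r ℂ)} (hp : p ∈ Zset n r) : F ℂ p ∈ Zset n r := by
  intro f hf
  have key : ∀ x : Tup n (Mat r ℂ), eval (coords (F ℂ x)) f =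
      eval (coords x) (bind₁ (coords (F _ (gen n r))) f) := fun x => by
    rw [coords_natural F hF x]
    exact (eval₂Hom_bind₁ (RingHom.id ℂ) (coords x) _ f).symm
  rw [key]
  refine hp _ fun q hq => ?_
  rw [← key, castC, hF ℤ ℂ]
  exact hf _ (hrep q hq)

theorem zset_move (m : Move n r) {p : Tup n (Mat r ℂ)} (hp : p ∈ Zset n r) :
    m.f ℂ p ∈ Zset n r :=
  zset_natural m.f m.natural (m.rep_f ℤ) hp

theorem zset_move' (m : Move n r) {p : Tup n (Mat r ℂ)} (hp : p ∈ Zset n r) :
    m.f' ℂ p ∈ Zset n r :=
  zset_move m.symm hp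

theorem mapR_twist {R S : Type*} [CommRing R] [CommRing S] (φ : R →+* S) (i : Fin n)
    (p : Tup n (Mat r R)) : twist i (mapR φ p) = mapR φ (twist i p) :=
  twist_map (φ.mapMatrix : Mat r R →+* Mat r S).toMonoidHom i p

theorem isRep_twist {R : Type*} [CommRing R] (i : Fin n) (p : Tup n (Mat r R)) (h : IsRep p) :
    IsRep (twist i p) := by
  obtain ⟨q, hq, rfl⟩ := (isRep_iff p).1 h
  exact (isRep_iff _).2 ⟨twist i q, by rw [relG_twist, hq], (twist_map (slCoe r R) i q).symm⟩

theorem zset_twist (i : Fin n) {p : Tup n (Mat r ℂ)} (hp : p ∈ Zset n r) :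
    twist i p ∈ Zset n r :=
  zset_natural (fun R _ => twist i) (fun _ _ _ _ φ p => mapR_twist φ i p) (isRep_twist i) hp

theorem zset_twist_iterate (i : Fin n) (N : ℕ) {p : Tup n (Mat r ℂ)} (hp : p ∈ Zset n r) :
    (p.1, Function.update p.2 i (p.2 i * p.1 i ^ N)) ∈ Zset n r := by
  induction N with
  | zero => simpa using hp
  | succ N ih =>
    have := zset_twist i ih
    simpa [twist, pow_succ, mul_assoc] using this

/-- The closure consists of representations. -/
theorem isRep_of_mem_zset {p : Tup n (Mat r ℂ)} (hp : p ∈ Zset n r) : IsRep p := by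
  have hd : ∀ (i : Fin n), (p.1 i).det = 1 ∧ (p.2 i).det = 1 := fun i => by
    have e1 : ∀ x : Tup n (Mat r ℂ), eval (coords x) (((gen n r).1 i).det - 1) =
        (x.1 i).det - 1 := fun x => by
      rw [map_sub, map_one, RingHom.map_det]
      exact congrArg (fun y : Tup n (Mat r ℂ) => (y.1 i).det - 1) (mapR_gen x)
    have e2 : ∀ x : Tup n (Mat r ℂ), eval (coords x) (((gen n r).2 i).det - 1) =
        (x.2 i).det - 1 := fun x => by
      rw [map_sub, map_one, RingHom.map_det]
      exact congrArg (fun y : Tup n (Mat r ℂ) => (y.2 i).det - 1) (mapR_gen x)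
    constructor
    · refine sub_eq_zero.1 ((e1 p).symm.trans (hp _ fun q hq => ?_))
      rw [e1, sub_eq_zero]
      exact (det_castC q hq.1).1 i
    · refine sub_eq_zero.1 ((e2 p).symm.trans (hp _ fun q hq => ?_))
      rw [e2, sub_eq_zero]
      exact (det_castC q hq.1).2 i
  refine ⟨⟨fun i => (hd i).1, fun i => (hd i).2⟩, ?_⟩
  ext j k
  have e : ∀ x : Tup n (Mat r ℂ), eval (coords x) (rel adjugate (gen n r) j k) =
      rel adjugate x j k := fun x => by
    have := rel_map (eval (coords x)).mapMatrix.toMonoidHom adjugate adjugate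
      (fun a => (eval (coords x)).map_adjugate a) (gen n r)
    refine (congrFun (congrFun this.symm j) k).trans ?_
    exact congrArg (fun y => rel adjugate y j k) (mapR_gen x)
  refine sub_eq_zero.1 ?_
  have := hp (rel adjugate (gen n r) j k - C ((1 : Mat r ℂ) j k)) fun q hq => ?_
  · simpa [e] using this
  rw [map_sub, eval_C, e, sub_eq_zero]
  have h2 := rel_map (Int.castRingHom ℂ).mapMatrix.toMonoidHom adjugate adjugate
    (fun a => (Int.castRingHom ℂ).map_adjugate a) q
  exact congrFun (congrFun (h2.trans (by rw [hq.2, map_one])) j) k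

/-! ### The locus `b = 1` -/

/-- The tuples `(A, 1)`. -/
def locus {R : Type*} [CommRing R] (A : Fin n → Mat r R) : Tup n (Mat r R) := (A, fun _ => 1)

theorem isRep_locus {R : Type*} [CommRing R] (A : Fin n → Mat r R) (hA : ∀ i, (A i).det = 1) :
    IsRep (locus A) := by
  refine ⟨⟨hA, fun _ => det_one⟩, ?_⟩
  refine List.prod_eq_one fun x hx => ?_
  obtain ⟨i, rfl⟩ := List.mem_ofFn.1 hx
  simp [locus, mul_adjugate, hA i]

/-- Multiply `a i` by a transvection and reset `b`. -/
def locusT {R : Type*} [CommRing R] (i : Fin n) (a b : Fin r) (c : R) (p : Tup n (Mat r R)) :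
    Tup n (Mat r R) :=
  locus (Function.update p.1 i (p.1 i * transvection a b c))

theorem mapR_locusT {R S : Type*} [CommRing R] [CommRing S] (φ : R →+* S) (i : Fin n)
    (a b : Fin r) (c : R) (p : Tup n (Mat r R)) :
    locusT i a b (φ c) (mapR φ p) = mapR φ (locusT i a b c p) := by
  refine Prod.ext (funext fun j => ?_) (funext fun j => ?_)
  · by_cases h : j = i
    · subst h
      simp [locusT, locus, mapR, mapTup, transvection, Matrix.map_add, Matrix.map_single]
    · simp [locusT, locus, mapR, mapTup, h]
  · simp [locusT, locus, mapR, mapTup]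

theorem isRep_locusT {R : Type*} [CommRing R] (i : Fin n) {a b : Fin r} (hab : a ≠ b) (c : R)
    (p : Tup n (Mat r R)) (hp : IsRep p) : IsRep (locusT i a b c p) := by
  refine isRep_locus _ fun j => ?_
  by_cases h : j = i
  · subst h
    simp [det_transvection_of_ne _ _ hab, hp.1.1 j]
  · simp [h, hp.1.1 j]

theorem zset_locusT_int (i : Fin n) {a b : Fin r} (hab : a ≠ b) (z : ℤ)
    {p : Tup n (Mat r ℂ)} (hp : p ∈ Zset n r) : locusT i a b (z : ℂ) p ∈ Zset n r := by
  have h := zset_natural (fun R _ q => locusT i a b (z : R) q)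
    (fun R S _ _ φ q => by rw [← mapR_locusT φ i a b (z : R) q, map_intCast])
    (fun q hq => isRep_locusT i hab (z : ℤ) q hq) hp
  exact h

/-- Transvections with complex coefficients act on the closure inside the locus. -/
theorem zset_locusT (i : Fin n) {a b : Fin r} (hab : a ≠ b) (c : ℂ)
    {p : Tup n (Mat r ℂ)} (hp : p ∈ Zset n r) : locusT i a b c p ∈ Zset n r := by
  intro f hf
  let P : Polynomial ℂ := MvPolynomial.aeval
    (coords (locusT i a b (Polynomial.X : Polynomial ℂ) (mapR Polynomial.C p))) f
  have hP : ∀ t : ℂ, P.eval t = eval (coords (locusT i a b t p)) f := by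
    intro t
    have h1 : mapR (Polynomial.evalRingHom t) (mapR Polynomial.C p) = p := by
      refine Prod.ext (funext fun j => ?_) (funext fun j => ?_) <;> ext k l <;>
        simp [mapR, mapTup]
    have h2 := mapR_locusT (Polynomial.evalRingHom t) i a b (Polynomial.X : Polynomial ℂ)
      (mapR Polynomial.C p)
    rw [h1, show Polynomial.evalRingHom t Polynomial.X = t by simp] at h2
    rw [h2, coords_mapR]
    simp only [P]
    change ((Polynomial.evalRingHom t).comp (MvPolynomial.aeval _).toRingHom) f = _
    refine RingHom.congr_fun ?_ f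
    exact MvPolynomial.ringHom_ext (fun z => by simp) fun v => by simp
  have : P = 0 := Polynomial.eq_zero_of_infinite_isRoot P
    (Set.infinite_of_injective_forall_mem Int.cast_injective fun z : ℤ =>
      (hP z).trans (zset_locusT_int i hab z hp f hf))
  rw [← hP, this, Polynomial.eval_zero]

/-- The products of transvections. -/
def transGroup (r : ℕ) : Submonoid (Mat r ℂ) :=
  Submonoid.closure {M | ∃ a b : Fin r, ∃ c : ℂ, a ≠ b ∧ M = transvection a b c}

theorem zset_locus_mul (A : Fin n → Mat r ℂ) (hA : locus A ∈ Zset n r) (i : Fin n) {T : Mat r ℂ}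
    (hT : T ∈ transGroup r) : locus (Function.update A i (A i * T)) ∈ Zset n r := by
  induction hT using Submonoid.closure_induction generalizing A with
  | mem T h =>
    obtain ⟨a, b, c, hab, rfl⟩ := h
    have h' := zset_locusT i hab c hA
    simpa [locusT, locus] using h'
  | one => simpa using hA
  | mul T T' _ _ ih ih' => simpa [mul_assoc] using ih' _ (ih A hA)

theorem locus_one_mem : locus (fun _ => (1 : Mat r ℂ)) ∈ Zset n r := by
  intro f hf
  have h := hf (locus fun _ => (1 : Mat r ℤ)) (isRep_locus _ fun _ => det_one)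
  have e : castC (locus fun _ : Fin n => (1 : Mat r ℤ)) = locus fun _ => (1 : Mat r ℂ) := by
    refine Prod.ext (funext fun j => ?_) (funext fun j => ?_) <;>
      simp [castC, locus, mapR, mapTup]
  rwa [e] at h

theorem zset_locus_of_mem (A : Fin n → Mat r ℂ) (hA : ∀ i, A i ∈ transGroup r) :
    locus A ∈ Zset n r := by
  have : ∀ s : Finset (Fin n), locus (fun j => if j ∈ s then A j else 1) ∈ Zset n r := by
    intro s
    induction s using Finset.induction with
    | empty => simpa using locus_one_mem
    | @insert i s hi ih =>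
      have h := zset_locus_mul _ ih i (hA i)
      convert h using 2
      funext j
      by_cases hj : j = i
      · subst hj; simp [hi]
      · simp [hj]
  simpa using this Finset.univ

end Vale.Agent.P002
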