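import Vale.Agent.P002.Zar

/-!
Generic matrices: semisimple with eigenvalues as independent as the determinant allows.  For such
an `a` the powers of `a` are dense in a maximal torus, so the twist `b ↦ b * a` becomes a flow.
-/

namespace Vale.Agent.P002

open Matrix Complex

variable {n r : ℕ}

theorem diag2_six (a b : Fin r) (hab : a ≠ b) (c : ℂ) (hc : c ≠ 0) :
    (diagonal fun k => if k = a then c else if k = b then c⁻¹ else (1 : ℂ)) =
      transvection a b c * transvection b a (-c⁻¹) * transvection a b c *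
        transvection a b (-1) * transvection b a 1 * transvection a b (-1) := by
  ext k l
  simp only [transvection, diagonal_apply, mul_add, add_mul, one_mul, mul_one,
    single_mul_single_same, single_mul_single_of_ne _ _ _ _ hab,
    single_mul_single_of_ne _ _ _ _ hab.symm, Matrix.add_apply, Matrix.one_apply,
    Matrix.single_apply, add_zero]
  by_cases h1 : k = a <;> by_cases h2 : k = b <;> by_cases h3 : l = a <;> by_cases h4 : l = b <;>
    simp_all [eq_comm]

theorem mem_transGroup (A : Mat r ℂ) (hA : A.det = 1) : A ∈ transGroup r := by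
  rcases Nat.lt_or_ge r 2 with hr | hr
  · have : A = 1 := by
      interval_cases r
      · exact Subsingleton.elim _ _
      · ext i j
        fin_cases i; fin_cases j
        rw [det_fin_one] at hA
        simpa using hA
    exact this ▸ one_mem _
  · have : Nontrivial (Fin r) := Fin.nontrivial_iff_two_le.2 hr
    refine Matrix.SpecialLinearGroup.diagonal_transvection_induction'
      (fun M => (M.1 : Mat r ℂ) ∈ transGroup r) ⟨A, hA⟩ (fun i j hij c hc => ?_)
      (fun i j hij c => Submonoid.subset_closure ⟨i, j, c, hij, rfl⟩)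
      (fun M M' h h' => mul_mem h h')
    have e : ((Matrix.SpecialLinearGroup.diag2n hij c hc).1 : Mat r ℂ) =
        diagonal fun k => if k = i then c else if k = j then c⁻¹ else (1 : ℂ) := by
      rw [Matrix.SpecialLinearGroup.diag2n_coe]
    rw [e, diag2_six i j hij c hc]
    have ht : ∀ {u v : Fin r} (_ : u ≠ v) (s : ℂ), transvection u v s ∈ transGroup r :=
      fun {u v} h s => Submonoid.subset_closure ⟨u, v, s, h, rfl⟩
    exact mul_mem (mul_mem (mul_mem (mul_mem (mul_mem (ht hij _) (ht hij.symm _)) (ht hij _))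
      (ht hij _)) (ht hij.symm _)) (ht hij _)

theorem locus_mem_zset (A : Fin n → Mat r ℂ) (hA : ∀ i, (A i).det = 1) : locus A ∈ Zset n r :=
  zset_locus_of_mem A fun i => mem_transGroup _ (hA i)

/-- No multiplicative relation among the eigenvalues besides the determinant. -/
def Indep (μ : Fin r → ℂ) : Prop :=
  ∀ m : Fin r → ℤ, ∑ i, m i = 0 → ∏ i, μ i ^ m i = 1 → m = 0

/-- Diagonalisable with independent eigenvalues. -/
def Gen (a : Mat r ℂ) : Prop :=
  ∃ (S : Mat r ℂ) (μ : Fin r → ℂ), IsUnit S.det ∧ (∀ i, μ i ≠ 0) ∧ Indep μ ∧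
    a = S * diagonal μ * S⁻¹

theorem Gen.smul {a : Mat r ℂ} (h : Gen a) {c : ℂ} (hc : c ≠ 0) : Gen (c • a) := by
  obtain ⟨S, μ, hS, hμ, hi, rfl⟩ := h
  refine ⟨S, fun i => c * μ i, hS, fun i => mul_ne_zero hc (hμ i), fun m hm he => hi m hm ?_, ?_⟩
  · have h1 : ∏ i, c ^ m i = 1 := by
      have : ∀ s : Finset (Fin r), ∏ i ∈ s, c ^ m i = c ^ (∑ i ∈ s, m i) := by
        intro s
        induction s using Finset.induction with
        | empty => simp
        | @insert i s hi ih => rw [Finset.prod_insert hi, Finset.sum_insert hi, ih, zpow_add₀ hc]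
      rw [this, hm, zpow_zero]
    simpa [mul_zpow, Finset.prod_mul_distrib, h1] using he
  · rw [← Matrix.smul_mul, ← Matrix.mul_smul]
    congr 2
    ext i j
    by_cases h : i = j <;> simp [h]

theorem dense_indep : Dense {z : Fin r → ℂ | Indep fun i => cexp (z i)} := by
  let ι := {p : (Fin r → ℤ) × ℤ // p.1 ≠ 0}
  let O : ι → Set (Fin r → ℂ) := fun p =>
    {z | ∑ i, (p.1.1 i : ℂ) * z i ≠ p.1.2 * (2 * Real.pi * I)}
  have ho : ∀ p, IsOpen (O p) := fun p => isOpen_ne_fun (by fun_prop) continuous_const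
  have hd : ∀ p, Dense (O p) := by
    intro p z
    obtain ⟨j, hj⟩ := Function.ne_iff.1 p.2
    have hlin : ∀ t : ℂ, ∑ i, (p.1.1 i : ℂ) * (z + Pi.single j t : Fin r → ℂ) i =
        (∑ i, (p.1.1 i : ℂ) * z i) + p.1.1 j * t := fun t => by
      simp [mul_add, Finset.sum_add_distrib, Pi.single_apply]
    by_cases hz : z ∈ O p
    · exact subset_closure hz
    simp only [O, Set.mem_ofPred_eq, not_not] at hz
    rw [mem_closure_iff_seq_limit]
    refine ⟨fun k => (z + Pi.single j (((k : ℂ) + 1)⁻¹) : Fin r → ℂ), fun k => ?_, ?_⟩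
    · simp only [O, Set.mem_ofPred_eq, hlin, hz, ne_eq, add_eq_left, mul_eq_zero, Int.cast_eq_zero,
        inv_eq_zero, not_or]
      exact ⟨hj, Nat.cast_add_one_ne_zero k⟩
    · have h0 : Filter.Tendsto (fun k : ℕ => ((k : ℂ) + 1)⁻¹) Filter.atTop (nhds 0) := by
        simpa using (tendsto_one_div_add_atTop_nhds_zero_nat (𝕜 := ℂ))
      simpa using (tendsto_const_nhds (x := z)).add
        (((continuous_single j).tendsto _).comp h0)
  refine Dense.mono ?_ (dense_iInter_of_isOpen ho hd)
  intro z hz m hm he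
  by_contra hne
  have e1 : cexp (∑ i, (m i : ℂ) * z i) = 1 := by
    rw [Complex.exp_sum]
    simpa [Complex.exp_int_mul] using he
  obtain ⟨k, hk⟩ := Complex.exp_eq_one_iff.1 e1
  exact Set.mem_iInter.1 hz ⟨(m, k), hne⟩ hk

/-- A diagonalisation of a matrix with separable characteristic polynomial. -/
theorem exists_diagonalisation (a : Mat r ℂ) (ha : a.charpoly.Separable) :
    ∃ (S : Mat r ℂ) (μ : Fin r → ℂ), IsUnit S.det ∧ a = S * diagonal μ * S⁻¹ := by
  classical
  have hcard : a.charpoly.roots.toFinset.card = r := by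
    rw [Multiset.toFinset_card_of_nodup (Polynomial.nodup_roots ha),
      ← Polynomial.Splits.natDegree_eq_card_roots (IsAlgClosed.splits _),
      Matrix.charpoly_natDegree_eq_dim, Fintype.card_fin]
  let e : Fin r ≃ a.charpoly.roots.toFinset := (Finset.equivFinOfCardEq hcard).symm
  let μ : Fin r → ℂ := fun i => (e i : ℂ)
  have hμ : Function.Injective μ := fun i j h => e.injective (Subtype.ext h)
  have hv : ∀ i, ∃ v : Fin r → ℂ, Module.End.HasEigenvector (Matrix.toLin' a) (μ i) v := fun i => by
    refine Module.End.HasEigenvalue.exists_hasEigenvector ?_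
    rw [Module.End.hasEigenvalue_iff_isRoot_charpoly, Matrix.charpoly_toLin']
    have := (e i).2
    rw [Multiset.mem_toFinset, Polynomial.mem_roots'] at this
    exact this.2
  choose v hv using hv
  have hli := Module.End.eigenvectors_linearIndependent' (Matrix.toLin' a) μ hμ v hv
  let S : Mat r ℂ := Matrix.of fun k i => v i k
  have hS : IsUnit S.det := by
    rw [← Matrix.isUnit_iff_isUnit_det, ← Matrix.linearIndependent_cols_iff_isUnit]
    exact hli
  refine ⟨S, μ, hS, ?_⟩
  have hAS : a * S = S * diagonal μ := by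
    ext k i
    have := congrFun (hv i).apply_eq_smul k
    rw [Matrix.mul_diagonal]
    simpa [S, Matrix.mul_apply, Matrix.toLin'_apply, Matrix.mulVec, dotProduct, mul_comm] using this
  rw [← hAS, Matrix.mul_nonsing_inv_cancel_right _ _ hS]

open scoped Matrix.Norms.Operator

theorem exists_separable_near (a : Mat r ℂ) {O : Set (Mat r ℂ)} (hO : IsOpen O) (ha : a ∈ O) :
    ∃ a' ∈ O, a'.charpoly.Separable ∧ a'.det ≠ 0 := by
  open Polynomial in
  let D : Mat r ℂ := diagonal fun i => ((i : ℕ) : ℂ) + 1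
  let L : Mat r ℂ[X] := a.map C + (X : ℂ[X]) • (D - a).map C
  let ev : ℂ → Mat r ℂ := fun t => a + t • (D - a)
  have hev : ∀ t, (evalRingHom t).mapMatrix L = ev t := fun t => by
    ext i j
    simp [L, ev]
  let R : ℂ[X] := L.det * Polynomial.resultant L.charpoly L.charpoly.derivative r (r - 1)
  have hR : ∀ t, R.eval t = (ev t).det *
      Polynomial.resultant (ev t).charpoly (ev t).charpoly.derivative r (r - 1) := fun t => by
    have h1 : (ev t).charpoly = L.charpoly.map (evalRingHom t) := by
      rw [← hev t]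
      exact Matrix.charpoly_map L (evalRingHom t)
    rw [h1, Polynomial.derivative_map, Polynomial.resultant_map_map, ← hev t, ← RingHom.map_det]
    simp [R]
  have hsep : ∀ b : Mat r ℂ, Polynomial.resultant b.charpoly b.charpoly.derivative r (r - 1) ≠ 0 ↔
      b.charpoly.Separable := fun b => by
    have hd : b.charpoly.natDegree = r := by simp [Matrix.charpoly_natDegree_eq_dim]
    have hd' : b.charpoly.derivative.natDegree = r - 1 := by
      rw [Polynomial.natDegree_derivative, hd]
    rw [Polynomial.separable_def]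
    have := Polynomial.isUnit_resultant_iff_isCoprime (g := b.charpoly.derivative)
      (Matrix.charpoly_monic b)
    rw [hd, hd', isUnit_iff_ne_zero] at this
    exact this
  have hD : D.charpoly.Separable := by
    simp only [D, Matrix.charpoly_diagonal]
    exact Polynomial.separable_prod_X_sub_C_iff.2 fun i j h => Fin.ext (by exact_mod_cast add_right_cancel h)
  have hR0 : R ≠ 0 := by
    intro h0
    have := hR 1
    have e : ev 1 = D := by simp [ev]
    rw [h0, Polynomial.eval_zero, eq_comm, mul_eq_zero] at this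
    rcases this with h | h
    · rw [e] at h
      simp [D, Finset.prod_eq_zero_iff, Nat.cast_add_one_ne_zero] at h
    · exact (hsep (ev 1)).2 (e ▸ hD) h
  have hnhds : ev ⁻¹' O ∈ nhds (0 : ℂ) :=
    (hO.preimage (by fun_prop)).mem_nhds (by simpa [ev] using ha)
  obtain ⟨t, ht, htR⟩ : ∃ t ∈ ev ⁻¹' O, ¬ R.IsRoot t := by
    by_contra! h
    exact (infinite_of_mem_nhds (0 : ℂ) hnhds) ((Polynomial.finite_setOfPred_isRoot hR0).subset h)
  rw [Polynomial.IsRoot, hR, mul_eq_zero, not_or] at htR
  exact ⟨ev t, ht, (hsep _).1 htR.2, htR.1⟩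

theorem dense_gen : Dense {a : Mat r ℂ | Gen a} := by
  rw [dense_iff_inter_open]
  intro O hO ⟨a, ha⟩
  obtain ⟨a', ha', hsep, hdet⟩ := exists_separable_near a hO ha
  obtain ⟨S, μ, hS, rfl⟩ := exists_diagonalisation a' hsep
  have hμ : ∀ i, μ i ≠ 0 := fun i h => hdet (by
    rw [det_mul, det_mul, det_diagonal, Finset.prod_eq_zero (Finset.mem_univ i) h]; simp)
  let F : (Fin r → ℂ) → Mat r ℂ := fun z => S * diagonal (fun i => cexp (z i)) * S⁻¹
  have hF : Continuous F := by fun_prop
  have h0 : (fun i => Complex.log (μ i)) ∈ F ⁻¹' O := by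
    simp only [Set.mem_preimage, F, Complex.exp_log (hμ _)]
    exact ha'
  obtain ⟨z, hz, hzi⟩ := dense_iff_inter_open.1 (dense_indep (r := r)) _ (hO.preimage hF) ⟨_, h0⟩
  exact ⟨F z, hz, S, _, hS, fun i => Complex.exp_ne_zero _, hzi, rfl⟩

theorem det_exp (a : Mat r ℂ) : (NormedSpace.exp a).det = cexp a.trace := by
  refine congrFun (Continuous.ext_on (f := fun a : Mat r ℂ => (NormedSpace.exp a).det)
    (g := fun a => cexp a.trace) (dense_gen (r := r)) ?_ ?_ ?_) a
  · exact (NormedSpace.exp_continuous (𝔸 := Mat r ℂ)).matrix_det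
  · fun_prop
  rintro _ ⟨S, μ, hS, -, -, rfl⟩
  have hu := (Matrix.isUnit_iff_isUnit_det S).2 hS
  simp only
  rw [Matrix.exp_conj S _ hu, Matrix.exp_diagonal, det_mul, det_mul, det_diagonal,
    Matrix.trace_mul_cycle, Matrix.nonsing_inv_mul S hS, one_mul, trace_diagonal, Complex.exp_sum,
    mul_right_comm, ← det_mul, Matrix.mul_nonsing_inv S hS, det_one, one_mul]
  simp [Pi.coe_exp, Complex.exp_eq_exp_ℂ]

/-- The traceless part of a power. -/
noncomputable def pw (a : Mat r ℂ) (k : ℕ) : Mat r ℂ :=
  a ^ k - ((a ^ k).trace / (r : ℂ)) • 1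

/-- The flow which extends the twist. -/
noncomputable def flow (i : Fin n) (k : ℕ) (s : ℂ) (p : Tup n (Mat r ℂ)) : Tup n (Mat r ℂ) :=
  (p.1, Function.update p.2 i (p.2 i * NormedSpace.exp (s • pw (p.1 i) k)))

theorem trace_pw (hr : r ≠ 0) (a : Mat r ℂ) (k : ℕ) : (pw a k).trace = 0 := by
  simp [pw, trace_smul, trace_one]
  field_simp
  ring

/-- A polynomial which vanishes on the powers of an independent point vanishes on its torus. -/
theorem eval_eq_zero_of_powers (μ : Fin r → ℂ) (hμ : ∀ i, μ i ≠ 0) (hdet : ∏ i, μ i = 1)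
    (hi : Indep μ) (P : MvPolynomial (Fin r) ℂ)
    (hP : ∀ N : ℕ, MvPolynomial.eval (fun i => μ i ^ N) P = 0) (y : Fin r → ℂ)
    (hy : ∑ i, y i = 0) : MvPolynomial.eval (fun i => cexp (y i)) P = 0 := by
  classical
  let χ : (Fin r →₀ ℕ) → ℂ := fun m => ∏ i, μ i ^ m i
  let φ : (Fin r →₀ ℕ) → ℂ := fun m => ∏ i, cexp (y i) ^ m i
  have hχ : ∀ m m', χ m = χ m' → φ m = φ m' := by
    intro m m' h
    let d : Fin r → ℤ := fun i => (m i : ℤ) - m' i
    have hd1 : ∏ i, μ i ^ d i = 1 := by
      simp only [d, zpow_sub₀ (hμ _), zpow_natCast, Finset.prod_div_distrib]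
      change χ m / χ m' = 1
      rw [h, div_self]
      exact Finset.prod_ne_zero_iff.2 fun i _ => pow_ne_zero _ (hμ i)
    have hprod : ∀ s : ℤ, ∏ i, μ i ^ s = 1 := fun s => by
      rw [Finset.prod_zpow, hdet, _root_.one_zpow]
    have := hi (fun i => (r : ℤ) * d i - ∑ j, d j)
      (by simp [Finset.sum_sub_distrib, ← Finset.mul_sum]) (by
        simp only [zpow_sub₀ (hμ _), Finset.prod_div_distrib, hprod, div_one]
        simp only [mul_comm (r : ℤ), _root_.zpow_mul]
        rw [Finset.prod_zpow, hd1, _root_.one_zpow])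
    have h2 : ∑ i, (m i : ℂ) * y i = ∑ i, (m' i : ℂ) * y i := by
      rcases Nat.eq_zero_or_pos r with h0 | h0
      · subst h0; simp
      have hrc : (r : ℂ) ≠ 0 := by exact_mod_cast h0.ne'
      refine sub_eq_zero.1 ((mul_eq_zero.1 ?_).resolve_left hrc)
      calc (r : ℂ) * (∑ i, (m i : ℂ) * y i - ∑ i, (m' i : ℂ) * y i)
          = ∑ i, ((∑ j, d j : ℤ) : ℂ) * y i := by
            rw [← Finset.sum_sub_distrib, Finset.mul_sum]
            refine Finset.sum_congr rfl fun i _ => ?_
            have h3 := sub_eq_zero.1 (congrFun this i)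
            rw [← h3]
            push_cast [d]
            ring
        _ = 0 := by rw [← Finset.mul_sum, hy, mul_zero]
    simp only [φ, ← Complex.exp_nat_mul, ← Complex.exp_sum, h2]
  have e1 : ∀ x : Fin r → ℂ, MvPolynomial.eval x P =
      ∑ m ∈ P.support, P.coeff m * ∏ i, x i ^ m i := fun x => MvPolynomial.eval_eq' x P
  let J : Finset ℂ := P.support.image χ
  let w : ℂ → ℂ := fun c => ∑ m ∈ P.support.filter (fun m => χ m = c), P.coeff m
  have hw : ∀ c ∈ J, w c = 0 := by
    have hpow : ∀ N : ℕ, ∑ c ∈ J, w c * c ^ N = 0 := fun N => by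
      rw [← hP N, e1, ← Finset.sum_fiberwise_of_maps_to
        (fun m hm => Finset.mem_image_of_mem χ hm)]
      refine Finset.sum_congr rfl fun c _ => ?_
      rw [Finset.sum_mul]
      refine Finset.sum_congr rfl fun m hm => ?_
      rw [← (Finset.mem_filter.1 hm).2]
      simp only [χ, ← Finset.prod_pow, ← pow_mul, mul_comm N]
    intro c hc
    let e := J.equivFin
    have := Matrix.eq_zero_of_forall_pow_sum_mul_pow_eq_zero
      (f := fun j => ((e.symm j : J) : ℂ)) (v := fun j => w (e.symm j : J))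
      (fun j j' h => e.symm.injective (Subtype.ext h)) fun N => by
        rw [e.symm.sum_comp (fun c : J => w c * (c : ℂ) ^ (N : ℕ))]
        exact (Finset.sum_coe_sort J fun c => w c * c ^ (N : ℕ)).trans (hpow N)
    simpa using congrFun this (e ⟨c, hc⟩)
  rw [e1, ← Finset.sum_fiberwise_of_maps_to (fun m hm => Finset.mem_image_of_mem χ hm)]
  refine Finset.sum_eq_zero fun c hc => ?_
  obtain ⟨m0, -, rfl⟩ := Finset.mem_image.1 hc
  rw [Finset.sum_congr rfl fun m hm => by
    rw [show (∏ i, cexp (y i) ^ m i) = φ m0 from hχ m m0 (Finset.mem_filter.1 hm).2],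
    ← Finset.sum_mul]
  exact mul_eq_zero_of_left (hw _ hc) _

theorem pw_conj (S : Mat r ℂ) (hS : IsUnit S.det) (μ : Fin r → ℂ) (k : ℕ) :
    pw (S * diagonal μ * S⁻¹) k =
      S * diagonal (fun i => μ i ^ k - (∑ j, μ j ^ k) / (r : ℂ)) * S⁻¹ := by
  have hp : (S * diagonal μ * S⁻¹) ^ k = S * diagonal (fun i => μ i ^ k) * S⁻¹ := by
    induction k with
    | zero => simp [Matrix.mul_nonsing_inv S hS]
    | succ k ih =>
      rw [pow_succ, ih, ← mul_assoc, ← mul_assoc, Matrix.nonsing_inv_mul_cancel_right _ _ hS,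
        mul_assoc S, diagonal_mul_diagonal]
      simp [pow_succ]
  have ht : ((S * diagonal μ * S⁻¹) ^ k).trace = ∑ j, μ j ^ k := by
    rw [hp, Matrix.trace_mul_cycle, Matrix.nonsing_inv_mul S hS, one_mul, trace_diagonal]
  rw [pw, ht, hp]
  set c := (∑ j, μ j ^ k) / (r : ℂ)
  have : diagonal (fun i => μ i ^ k - c) = diagonal (fun i => μ i ^ k) - c • (1 : Mat r ℂ) := by
    ext i j
    by_cases h : i = j <;> simp [h]
  rw [this, mul_sub, sub_mul, Matrix.mul_smul, Matrix.smul_mul, mul_one,
    Matrix.mul_nonsing_inv S hS]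

/-- The closure is invariant under the flow at a generic matrix. -/
theorem zset_flow (i : Fin n) (k : ℕ) (s : ℂ) {p : Tup n (Mat r ℂ)} (hp : p ∈ Zset n r)
    (hg : Gen (p.1 i)) : flow i k s p ∈ Zset n r := by
  obtain ⟨S, μ, hS, hμ, hi, ha⟩ := hg
  have hdet : ∏ j, μ j = 1 := by
    have h := (isRep_of_mem_zset hp).1.1 i
    rw [ha, det_mul, det_mul, det_diagonal, mul_right_comm, ← det_mul,
      Matrix.mul_nonsing_inv S hS, det_one, one_mul] at h
    exact h
  intro f hf
  let q : Tup n (Mat r (MvPolynomial (Fin r) ℂ)) :=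
    ((mapR MvPolynomial.C p).1, Function.update (mapR MvPolynomial.C p).2 i
      ((p.2 i * S).map MvPolynomial.C * diagonal MvPolynomial.X * S⁻¹.map MvPolynomial.C))
  let P : MvPolynomial (Fin r) ℂ := MvPolynomial.aeval (coords q) f
  have hP : ∀ x : Fin r → ℂ, MvPolynomial.eval x P = MvPolynomial.eval
      (coords (p.1, Function.update p.2 i (p.2 i * (S * diagonal x * S⁻¹)))) f := by
    intro x
    have hq : mapR (MvPolynomial.eval x) q =
        (p.1, Function.update p.2 i (p.2 i * (S * diagonal x * S⁻¹))) := by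
      refine Prod.ext (funext fun j => ?_) (funext fun j => ?_)
      · ext u v; simp [q, mapR, mapTup]
      · by_cases h : j = i
        · subst h
          simp only [q, mapR, mapTup, Function.comp_apply, Function.update_self, map_mul,
            RingHom.mapMatrix_apply, Matrix.map_map, Matrix.diagonal_map (map_zero _)]
          simp [Function.comp_def, mul_assoc]
        · ext u v; simp [q, mapR, mapTup, h]
    rw [← hq, coords_mapR]
    change ((MvPolynomial.eval x).comp (MvPolynomial.aeval _).toRingHom) f = _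
    refine RingHom.congr_fun ?_ f
    exact MvPolynomial.ringHom_ext (fun z => by simp) fun v => by simp
  have hpow : ∀ N : ℕ, MvPolynomial.eval (fun j => μ j ^ N) P = 0 := fun N => by
    rw [hP]
    have e : p.1 i ^ N = S * diagonal (fun j => μ j ^ N) * S⁻¹ := by
      rw [ha]
      induction N with
      | zero => simp [Matrix.mul_nonsing_inv S hS]
      | succ N ih =>
        rw [pow_succ, ih, ← mul_assoc, ← mul_assoc, Matrix.nonsing_inv_mul_cancel_right _ _ hS,
          mul_assoc S, diagonal_mul_diagonal]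
        simp [pow_succ]
    rw [← e]
    exact zset_twist_iterate i N hp f hf
  have h := eval_eq_zero_of_powers μ hμ hdet hi P hpow
    (fun j => s * (μ j ^ k - (∑ l, μ l ^ k) / (r : ℂ))) (by
      rcases Nat.eq_zero_or_pos r with h0 | h0
      · subst h0; simp
      have hrc : (r : ℂ) ≠ 0 := by exact_mod_cast h0.ne'
      simp [← Finset.mul_sum, Finset.sum_sub_distrib]
      field_simp
      simp)
  rw [hP] at h
  have e : flow i k s p = (p.1, Function.update p.2 i (p.2 i *
      (S * diagonal (fun j => cexp (s * (μ j ^ k - (∑ l, μ l ^ k) / (r : ℂ)))) * S⁻¹))) := by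
    rw [flow]
    congr 3
    rw [ha, pw_conj S hS, ← Matrix.smul_mul, ← Matrix.mul_smul,
      Matrix.exp_conj S _ ((Matrix.isUnit_iff_isUnit_det S).2 hS)]
    congr 2
    rw [show s • diagonal (fun j => μ j ^ k - (∑ l, μ l ^ k) / (r : ℂ)) =
        diagonal (fun j => s * (μ j ^ k - (∑ l, μ l ^ k) / (r : ℂ))) by
      ext u v; by_cases huv : u = v <;> simp [huv], Matrix.exp_diagonal]
    congr 1
    funext j
    simp [Pi.coe_exp, Complex.exp_eq_exp_ℂ]
  rw [e]
  exact h

end Vale.Agent.P002
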