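import Vale.Agent.P002.Flow

/-!
The moves on the locus `b = 1`, and the derivatives of their inverses there.
-/

namespace Vale.Agent.P002

open Matrix Complex Filter Topology
open scoped Matrix.Norms.Operator

variable {n r g : ℕ}

/-- All entries have determinant one. -/
def DetA (A : Fin n → Mat r ℂ) : Prop := ∀ i, (A i).det = 1

theorem DetA.mul_adj {A : Fin n → Mat r ℂ} (h : DetA A) (i : Fin n) :
    A i * adjugate (A i) = 1 := by rw [mul_adjugate, h i, one_smul]

theorem DetA.adj_mul {A : Fin n → Mat r ℂ} (h : DetA A) (i : Fin n) :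
    adjugate (A i) * A i = 1 := by rw [adjugate_mul, h i, one_smul]

theorem DetA.mul_adj_right {A : Fin n → Mat r ℂ} (h : DetA A) (i : Fin n) (X : Mat r ℂ) :
    X * A i * adjugate (A i) = X := by rw [mul_assoc, h.mul_adj, mul_one]

theorem detOne_locus {A : Fin n → Mat r ℂ} (h : DetA A) : DetOne (locus A) :=
  ⟨h, fun _ => det_one⟩

theorem contDiff_adjugate : ContDiff ℂ 1 (fun a : Mat r ℂ => adjugate a) := by
  have h := contDiff_natural (n := 1) (r := r)
    (fun R _ p => (fun i => adjugate (p.1 i), p.2))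
    (fun R S _ _ φ p => Prod.ext (funext fun i => (φ.map_adjugate (p.1 i)).symm) rfl)
  exact ((contDiff_apply ℂ (Mat r ℂ) (0 : Fin 1)).comp
    (h.fst.comp ((contDiff_pi.2 fun _ => contDiff_id).prodMk
      (contDiff_const (c := (1 : Fin 1 → Mat r ℂ))))) :)

/-- The derivative of the inverse along a curve of determinant one. -/
theorem hasDerivAt_adj {γ : ℂ → Mat r ℂ} {η : Mat r ℂ} (hγ : HasDerivAt γ η 0)
    (hd : ∀ s, (γ s).det = 1) :
    HasDerivAt (fun s => adjugate (γ s)) (-(adjugate (γ 0) * η * adjugate (γ 0))) 0 := by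
  have h1 : DifferentiableAt ℂ (fun s => adjugate (γ s)) 0 :=
    ((contDiff_adjugate.differentiable one_ne_zero) (γ 0)).comp 0 hγ.differentiableAt
  set d := deriv (fun s => adjugate (γ s)) 0 with hdd
  have h2 := h1.hasDerivAt.mul hγ
  have e : (fun s => adjugate (γ s) * γ s) = fun _ => (1 : Mat r ℂ) := by
    funext s; rw [adjugate_mul, hd, one_smul]
  have h3 : d * γ 0 + adjugate (γ 0) * η = 0 := by
    have h4 : HasDerivAt (fun _ : ℂ => (1 : Mat r ℂ)) (d * γ 0 + adjugate (γ 0) * η) 0 := e ▸ h2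
    exact h4.unique (hasDerivAt_const 0 _)
  have h5 : d = -(adjugate (γ 0) * η * adjugate (γ 0)) := by
    calc d = d * (γ 0 * adjugate (γ 0)) := by rw [mul_adjugate, hd, one_smul, mul_one]
      _ = (d * γ 0) * adjugate (γ 0) := by rw [mul_assoc]
      _ = _ := by rw [eq_neg_of_add_eq_zero_left h3, neg_mul]
  exact h5 ▸ h1.hasDerivAt

/-- A move which is understood on the locus. -/
structure LMove (n r : ℕ) where
  /-- The move. -/
  m : Move n r
  /-- Its action on the locus. -/
  act : (Fin n → Mat r ℂ) → Fin n → Mat r ℂ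
  /-- The action of its inverse. -/
  act' : (Fin n → Mat r ℂ) → Fin n → Mat r ℂ
  /-- The derivative of the second components of its inverse. -/
  push : (Fin n → Mat r ℂ) → (Fin n → Mat r ℂ) → Fin n → Mat r ℂ
  f_eq : ∀ A, DetA A → m.f ℂ (locus A) = locus (act A)
  f'_eq : ∀ A, DetA A → m.f' ℂ (locus A) = locus (act' A)
  tang : ∀ A, DetA A → ∀ γ : ℂ → Tup n (Mat r ℂ), (∀ s, DetOne (γ s)) → γ 0 = locus (act A) →
    ∀ η β : Fin n → Mat r ℂ, (∀ i, HasDerivAt (fun s => (γ s).1 i) (η i) 0) →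
      (∀ i, HasDerivAt (fun s => (γ s).2 i) (β i) 0) →
        ∀ i, HasDerivAt (fun s => (m.f' ℂ (γ s)).2 i) (push A β i) 0

theorem LMove.det_act (M : LMove n r) {A : Fin n → Mat r ℂ} (hA : DetA A) : DetA (M.act A) := by
  have h := (M.m.det_f ℂ _ (detOne_locus hA)).1
  rw [M.f_eq A hA] at h
  exact h

theorem LMove.det_act' (M : LMove n r) {A : Fin n → Mat r ℂ} (hA : DetA A) : DetA (M.act' A) := by
  have h := (M.m.det_f' ℂ _ (detOne_locus hA)).1
  rw [M.f'_eq A hA] at h
  exact h

theorem LMove.onLocus (M : LMove n r) : OnLocus M.m :=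
  fun A hA => ⟨⟨_, M.f_eq A hA⟩, ⟨_, M.f'_eq A hA⟩⟩

theorem LMove.act'_act (M : LMove n r) {A : Fin n → Mat r ℂ} (hA : DetA A) :
    M.m.f' ℂ (locus (M.act A)) = locus A := by
  rw [← M.f_eq A hA, M.m.left_inv ℂ _ (detOne_locus hA)]

/-- First `M`, then `M'`. -/
def LMove.comp (M M' : LMove n r) : LMove n r where
  m := M.m.comp M'.m
  act A := M'.act (M.act A)
  act' A := M.act' (M'.act' A)
  push A β := M.push A (M'.push (M.act A) β)
  f_eq A hA := by
    change M'.m.f ℂ (M.m.f ℂ (locus A)) = _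
    rw [M.f_eq A hA, M'.f_eq _ (M.det_act hA)]
  f'_eq A hA := by
    change M.m.f' ℂ (M'.m.f' ℂ (locus A)) = _
    rw [M'.f'_eq A hA, M.f'_eq _ (M'.det_act' hA)]
  tang A hA γ hγ h0 η β hη hβ := by
    have hd : ∀ i, DifferentiableAt ℂ (fun s => (M'.m.f' ℂ (γ s)).1 i) 0 := fun i => by
      have hγd : DifferentiableAt ℂ γ 0 :=
        ((hasDerivAt_pi.2 hη).prodMk (hasDerivAt_pi.2 hβ)).differentiableAt
      exact ((((contDiff_apply ℂ (Mat r ℂ) i).comp
        (contDiff_natural M'.m.f' M'.m.natural').fst).differentiable one_ne_zero) (γ 0)).comp 0 hγd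
    refine M.tang A hA (fun s => M'.m.f' ℂ (γ s)) (fun s => M'.m.det_f' ℂ _ (hγ s)) ?_
      (fun i => deriv (fun s => (M'.m.f' ℂ (γ s)).1 i) 0) _ (fun i => (hd i).hasDerivAt)
      (M'.tang (M.act A) (M.det_act hA) γ hγ h0 η β hη hβ)
    rw [h0, M'.act'_act (M.det_act hA)]

/-- The trivial move. -/
def LMove.idL : LMove n r where
  m := Move.id'
  act A := A
  act' A := A
  push _ β := β
  f_eq _ _ := rfl
  f'_eq _ _ := rfl
  tang _ _ _ _ _ _ _ _ hβ := hβ

/-- The handle slide on the locus. -/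
def slideL : LMove (g + 2) r where
  m := Move.slideM
  act A := Fin.cons (adjugate (A 1) * A 0)
    (Fin.cons (A 1) fun i => adjugate (A 1) * A i.succ.succ * A 1)
  act' A := Fin.cons (A 1 * A 0)
    (Fin.cons (A 1) fun i => A 1 * A i.succ.succ * adjugate (A 1))
  push A β := Fin.cons (β 0) (Fin.cons (A 1 * β 1 * adjugate (A 1) - β 0)
    fun i => A 1 * β i.succ.succ * adjugate (A 1))
  f_eq A hA := by
    change slide adjugate (locus A) = _
    refine Prod.ext (funext fun i => ?_) (funext fun i => ?_) <;>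
      refine Fin.cases ?_ (fun i => Fin.cases ?_ (fun i => ?_) i) i <;>
      simp [slide, locus, hA.adj_mul]
  f'_eq A hA := by
    change unslide adjugate (locus A) = _
    refine Prod.ext (funext fun i => ?_) (funext fun i => ?_) <;>
      refine Fin.cases ?_ (fun i => Fin.cases ?_ (fun i => ?_) i) i <;>
      simp [unslide, locus, hA.mul_adj]
  tang A hA γ hγ h0 η β hη hβ i := by
    have e1 : (γ 0).1 1 = A 1 := by rw [h0]; simp [locus]
    have e2 : ∀ j, (γ 0).2 j = 1 := fun j => by rw [h0]; rfl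
    have ha : HasDerivAt (fun s => adjugate ((γ s).1 1))
        (-(adjugate (A 1) * η 1 * adjugate (A 1))) 0 := by
      have := hasDerivAt_adj (hη 1) fun s => (hγ s).1 1
      rwa [e1] at this
    have hb : HasDerivAt (fun s => adjugate ((γ s).2 0)) (-β 0) 0 := by
      have := hasDerivAt_adj (hβ 0) fun s => (hγ s).2 0
      rwa [e2, adjugate_one, one_mul, mul_one] at this
    change HasDerivAt (fun s => (unslide adjugate (γ s)).2 i) _ 0
    refine Fin.cases ?_ (fun i => Fin.cases ?_ (fun i => ?_) i) i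
    · simpa [unslide] using hβ 0
    · simp only [unslide, Fin.cons_succ, Fin.cons_zero]
      refine (hb.mul (((hη 1).mul (hβ 1)).mul ha)).congr_deriv ?_
      simp [e1, e2, add_mul, ← mul_assoc, hA.mul_adj]
      abel
    · simp only [unslide, Fin.cons_succ]
      refine (((hb.mul (hη 1)).mul (hβ i.succ.succ)).mul (ha.mul (hβ 0))).congr_deriv ?_
      simp [e1, e2, mul_add, add_mul, ← mul_assoc, hA.mul_adj, hA.mul_adj_right]
      abel

/-- The swap on the locus. -/
def swapL : LMove (g + 2) r where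
  m := Move.swapM
  act A := A ∘ Equiv.swap 0 1
  act' A := A ∘ Equiv.swap 0 1
  push _ β := β ∘ Equiv.swap 0 1
  f_eq A hA := by
    change swapH adjugate (locus A) = _
    refine Prod.ext (funext fun i => ?_) (funext fun i => ?_) <;>
      refine Fin.cases ?_ (fun i => Fin.cases ?_ (fun i => ?_) i) i <;>
      simp [swapH, locus, hA.mul_adj, Equiv.swap_apply_of_ne_of_ne,
        Fin.ext_iff]
  f'_eq A hA := by
    change unswapH adjugate (locus A) = _
    refine Prod.ext (funext fun i => ?_) (funext fun i => ?_) <;>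
      refine Fin.cases ?_ (fun i => Fin.cases ?_ (fun i => ?_) i) i <;>
      simp [unswapH, locus, hA.mul_adj, Equiv.swap_apply_of_ne_of_ne,
        Fin.ext_iff]
  tang A hA γ hγ h0 η β hη hβ i := by
    have e1 : (γ 0).1 1 = A 0 := by rw [h0]; simp [locus]
    have e2 : ∀ j, (γ 0).2 j = 1 := fun j => by rw [h0]; rfl
    have ha : HasDerivAt (fun s => adjugate ((γ s).1 1))
        (-(adjugate (A 0) * η 1 * adjugate (A 0))) 0 := by
      have := hasDerivAt_adj (hη 1) fun s => (hγ s).1 1
      rwa [e1] at this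
    have hb : HasDerivAt (fun s => adjugate ((γ s).2 1)) (-β 1) 0 := by
      have := hasDerivAt_adj (hβ 1) fun s => (hγ s).2 1
      rwa [e2, adjugate_one, one_mul, mul_one] at this
    change HasDerivAt (fun s => (unswapH adjugate (γ s)).2 i) _ 0
    refine Fin.cases ?_ (fun i => Fin.cases ?_ (fun i => ?_) i) i
    · simpa [unswapH] using hβ 1
    · simp only [unswapH, Fin.cons_succ, Fin.cons_zero]
      refine ((((((hβ 1).mul (hη 1)).mul hb).mul ha).mul (hβ 0)).mul
        ((((hη 1).mul (hβ 1)).mul ha).mul hb)).congr_deriv ?_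
      simp [e1, e2, mul_add, add_mul, ← mul_assoc, hA.mul_adj, hA.mul_adj_right]
      abel
    · simp only [unswapH, Fin.cons_succ]
      convert hβ i.succ.succ using 1
      simp [Equiv.swap_apply_of_ne_of_ne, Fin.ext_iff]

/-- The rotation on the locus. -/
def rotL : LMove (g + 2) r where
  m := Move.rotM
  act A := A ∘ finRotate (g + 2)
  act' A := A ∘ (finRotate (g + 2)).symm
  push _ β := β ∘ (finRotate (g + 2)).symm
  f_eq _ _ := rfl
  f'_eq _ _ := rfl
  tang _ _ _ _ _ _ _ _ hβ i := hβ ((finRotate (g + 2)).symm i)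

/-- Iterate a move. -/
def LMove.iter (M : LMove n r) : ℕ → LMove n r
  | 0 => LMove.idL
  | k + 1 => M.comp (M.iter k)

/-- Every permutation of the handles is a move. -/
theorem exists_permL (π : Equiv.Perm (Fin (g + 2))) : ∃ M : LMove (g + 2) r,
    ∀ A, DetA A → M.act A = A ∘ π ∧ ∀ β, M.push A β = β ∘ π.symm := by
  let S : Submonoid (Equiv.Perm (Fin (g + 2))) :=
    { carrier := {π | ∃ M : LMove (g + 2) r,
        ∀ A, DetA A → M.act A = A ∘ π ∧ ∀ β, M.push A β = β ∘ π.symm}
      one_mem' := ⟨LMove.idL, fun A _ => ⟨rfl, fun _ => rfl⟩⟩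
      mul_mem' := by
        rintro π π' ⟨M, hM⟩ ⟨M', hM'⟩
        refine ⟨M.comp M', fun A hA => ⟨?_, fun β => ?_⟩⟩
        · change M'.act (M.act A) = _
          rw [(hM' _ (M.det_act hA)).1, (hM A hA).1]
          rfl
        · change M.push A (M'.push (M.act A) β) = _
          rw [(hM' _ (M.det_act hA)).2, (hM A hA).2]
          rfl }
  have hS : ∀ {π}, π ∈ S → π⁻¹ ∈ S := fun {π} h => by
    have hπ := isOfFinOrder_of_finite π
    rw [← mem_powers_iff_mem_zpowers.mpr (inv_mem (Subgroup.mem_zpowers π)) |>.choose_spec]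
    exact pow_mem h _
  let H : Subgroup (Equiv.Perm (Fin (g + 2))) := { S with inv_mem' := hS }
  have hc : Subgroup.closure ({finRotate (g + 2),
      Equiv.swap 0 (finRotate (g + 2) 0)} : Set (Equiv.Perm (Fin (g + 2)))) ≤ H := by
    rw [Subgroup.closure_le]
    rintro π (rfl | rfl)
    · exact ⟨rotL, fun A _ => ⟨rfl, fun _ => rfl⟩⟩
    · refine ⟨swapL, fun A _ => ?_⟩
      have e : finRotate (g + 2) 0 = 1 := by simp [finRotate_apply]
      rw [e]
      exact ⟨rfl, fun _ => rfl⟩
  rw [Equiv.Perm.closure_cycle_adjacent_swap isCycle_finRotate support_finRotate 0] at hc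
  exact hc (Subgroup.mem_top π)

end Vale.Agent.P002
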