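import Vale.Agent.P002.Word

/-!
Representations by matrices, moves between them, and the closure of the integral ones.
-/

namespace Vale.Agent.P002

open Matrix

/-- Square matrices. -/
abbrev Mat (r : ℕ) (R : Type*) : Type _ := Matrix (Fin r) (Fin r) R

/-- All entries have determinant one. -/
def DetOne {R : Type*} [CommRing R] {n r : ℕ} (p : Tup n (Mat r R)) : Prop :=
  (∀ i, (p.1 i).det = 1) ∧ ∀ i, (p.2 i).det = 1

/-- A representation of the surface group in determinant one. -/
def IsRep {R : Type*} [CommRing R] {n r : ℕ} (p : Tup n (Mat r R)) : Prop :=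
  DetOne p ∧ rel adjugate p = 1

/-- Apply a ring map to every matrix. -/
def mapR {R S : Type*} [CommRing R] [CommRing S] {n r : ℕ} (φ : R →+* S)
    (p : Tup n (Mat r R)) : Tup n (Mat r S) :=
  mapTup φ.mapMatrix p

/-- The inclusion of the special linear group as a map of monoids. -/
def slCoe (r : ℕ) (R : Type*) [CommRing R] : Matrix.SpecialLinearGroup (Fin r) R →* Mat r R where
  toFun A := A.1
  map_one' := rfl
  map_mul' _ _ := rfl

/-- A tuple in the special linear group as a tuple of matrices. -/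
def toMat {R : Type*} [CommRing R] {n r : ℕ} (p : Tup n (Matrix.SpecialLinearGroup (Fin r) R)) :
    Tup n (Mat r R) :=
  mapTup (slCoe r R) p

theorem slCoe_inv {r : ℕ} {R : Type*} [CommRing R] (A : Matrix.SpecialLinearGroup (Fin r) R) :
    slCoe r R A⁻¹ = adjugate (slCoe r R A) :=
  Matrix.SpecialLinearGroup.coe_inv A

theorem detOne_iff {R : Type*} [CommRing R] {n r : ℕ} (p : Tup n (Mat r R)) :
    DetOne p ↔ ∃ q, toMat q = p :=
  ⟨fun h => ⟨(fun i => ⟨p.1 i, h.1 i⟩, fun i => ⟨p.2 i, h.2 i⟩), rfl⟩,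
    fun ⟨q, hq⟩ => hq ▸ ⟨fun i => (q.1 i).2, fun i => (q.2 i).2⟩⟩

theorem isRep_iff {R : Type*} [CommRing R] {n r : ℕ} (p : Tup n (Mat r R)) :
    IsRep p ↔ ∃ q : Tup n (Matrix.SpecialLinearGroup (Fin r) R), relG q = 1 ∧ toMat q = p := by
  constructor
  · rintro ⟨hd, hr⟩
    obtain ⟨q, rfl⟩ := (detOne_iff p).1 hd
    refine ⟨q, Subtype.ext ?_, rfl⟩
    exact (rel_map (slCoe r R) _ adjugate slCoe_inv q).symm.trans hr
  · rintro ⟨q, hq, rfl⟩
    refine ⟨(detOne_iff _).2 ⟨q, rfl⟩, ?_⟩
    refine (rel_map (slCoe r R) _ adjugate slCoe_inv q).trans ?_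
    rw [show rel (fun a => a⁻¹) q = 1 from hq, map_one]

/-- An invertible substitution which is given by polynomials and preserves representations. -/
structure Move (n r : ℕ) where
  /-- The substitution. -/
  f : ∀ (R : Type) [CommRing R], Tup n (Mat r R) → Tup n (Mat r R)
  /-- Its inverse. -/
  f' : ∀ (R : Type) [CommRing R], Tup n (Mat r R) → Tup n (Mat r R)
  natural : ∀ (R S : Type) [CommRing R] [CommRing S] (φ : R →+* S) (p : Tup n (Mat r R)),
    f S (mapR φ p) = mapR φ (f R p)
  natural' : ∀ (R S : Type) [CommRing R] [CommRing S] (φ : R →+* S) (p : Tup n (Mat r R)),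
    f' S (mapR φ p) = mapR φ (f' R p)
  det_f : ∀ (R : Type) [CommRing R] (p : Tup n (Mat r R)), DetOne p → DetOne (f R p)
  det_f' : ∀ (R : Type) [CommRing R] (p : Tup n (Mat r R)), DetOne p → DetOne (f' R p)
  rep_f : ∀ (R : Type) [CommRing R] (p : Tup n (Mat r R)), IsRep p → IsRep (f R p)
  rep_f' : ∀ (R : Type) [CommRing R] (p : Tup n (Mat r R)), IsRep p → IsRep (f' R p)
  left_inv : ∀ (R : Type) [CommRing R] (p : Tup n (Mat r R)), DetOne p → f' R (f R p) = p
  right_inv : ∀ (R : Type) [CommRing R] (p : Tup n (Mat r R)), DetOne p → f R (f' R p) = p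

namespace Move

variable {n r g : ℕ}

/-- The trivial move. -/
def id' : Move n r where
  f _ _ p := p
  f' _ _ p := p
  natural _ _ _ _ _ _ := rfl
  natural' _ _ _ _ _ _ := rfl
  det_f _ _ _ h := h
  det_f' _ _ _ h := h
  rep_f _ _ _ h := h
  rep_f' _ _ _ h := h
  left_inv _ _ _ _ := rfl
  right_inv _ _ _ _ := rfl

/-- The inverse move. -/
def symm (m : Move n r) : Move n r where
  f := m.f'
  f' := m.f
  natural := m.natural'
  natural' := m.natural
  det_f := m.det_f'
  det_f' := m.det_f
  rep_f := m.rep_f'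
  rep_f' := m.rep_f
  left_inv := m.right_inv
  right_inv := m.left_inv

/-- First `m`, then `m'`. -/
def comp (m m' : Move n r) : Move n r where
  f R _ p := m'.f R (m.f R p)
  f' R _ p := m.f' R (m'.f' R p)
  natural R S _ _ φ p := by rw [m.natural, m'.natural]
  natural' R S _ _ φ p := by rw [m'.natural', m.natural']
  det_f R _ p h := m'.det_f R _ (m.det_f R p h)
  det_f' R _ p h := m.det_f' R _ (m'.det_f' R p h)
  rep_f R _ p h := m'.rep_f R _ (m.rep_f R p h)
  rep_f' R _ p h := m.rep_f' R _ (m'.rep_f' R p h)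
  left_inv R _ p h := by rw [m'.left_inv R _ (m.det_f R p h), m.left_inv R p h]
  right_inv R _ p h := by rw [m.right_inv R _ (m'.det_f' R p h), m'.right_inv R p h]

/-- A substitution written in monoid operations gives a move. -/
def ofGroup (F F' : ∀ {M : Type} [Monoid M], (M → M) → Tup n M → Tup n M)
    (hnat : ∀ {M N : Type} [Monoid M] [Monoid N] (h : M →* N) (i : M → M) (i' : N → N)
      (_ : ∀ a, h (i a) = i' (h a)) (p : Tup n M), F i' (mapTup h p) = mapTup h (F i p))
    (hnat' : ∀ {M N : Type} [Monoid M] [Monoid N] (h : M →* N) (i : M → M) (i' : N → N)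
      (_ : ∀ a, h (i a) = i' (h a)) (p : Tup n M), F' i' (mapTup h p) = mapTup h (F' i p))
    (hrel : ∀ {G : Type} [Group G] (p : Tup n G), relG p = 1 →
      relG (F (fun a : G => a⁻¹) p) = 1)
    (hl : ∀ {G : Type} [Group G] (p : Tup n G),
      F' (fun a : G => a⁻¹) (F (fun a : G => a⁻¹) p) = p)
    (hr : ∀ {G : Type} [Group G] (p : Tup n G),
      F (fun a : G => a⁻¹) (F' (fun a : G => a⁻¹) p) = p)
    (hrel' : ∀ {G : Type} [Group G] (p : Tup n G), relG p = 1 →
      relG (F' (fun a : G => a⁻¹) p) = 1) :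
    Move n r where
  f _ _ p := F adjugate p
  f' _ _ p := F' adjugate p
  natural R S _ _ φ p := hnat φ.mapMatrix.toMonoidHom adjugate adjugate (fun a => φ.map_adjugate a) p
  natural' R S _ _ φ p :=
    hnat' φ.mapMatrix.toMonoidHom adjugate adjugate (fun a => φ.map_adjugate a) p
  det_f R _ p h := by
    obtain ⟨q, rfl⟩ := (detOne_iff p).1 h
    exact (detOne_iff _).2 ⟨_, (hnat (slCoe r R) _ adjugate slCoe_inv q).symm⟩
  det_f' R _ p h := by
    obtain ⟨q, rfl⟩ := (detOne_iff p).1 h
    exact (detOne_iff _).2 ⟨_, (hnat' (slCoe r R) _ adjugate slCoe_inv q).symm⟩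
  rep_f R _ p h := by
    obtain ⟨q, hq, rfl⟩ := (isRep_iff p).1 h
    exact (isRep_iff _).2 ⟨_, hrel q hq, (hnat (slCoe r R) _ adjugate slCoe_inv q).symm⟩
  rep_f' R _ p h := by
    obtain ⟨q, hq, rfl⟩ := (isRep_iff p).1 h
    exact (isRep_iff _).2 ⟨_, hrel' q hq, (hnat' (slCoe r R) _ adjugate slCoe_inv q).symm⟩
  left_inv R _ p h := by
    obtain ⟨q, rfl⟩ := (detOne_iff p).1 h
    change F' adjugate (F adjugate (mapTup (slCoe r R) q)) = mapTup (slCoe r R) q
    rw [hnat (slCoe r R) _ adjugate slCoe_inv q, hnat' (slCoe r R) _ adjugate slCoe_inv, hl]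
  right_inv R _ p h := by
    obtain ⟨q, rfl⟩ := (detOne_iff p).1 h
    change F adjugate (F' adjugate (mapTup (slCoe r R) q)) = mapTup (slCoe r R) q
    rw [hnat' (slCoe r R) _ adjugate slCoe_inv q, hnat (slCoe r R) _ adjugate slCoe_inv, hr]

/-- The handle slide. -/
def slideM : Move (g + 2) r :=
  ofGroup (fun i p => slide i p) (fun i p => unslide i p) (fun h i i' hi p => slide_map h i i' hi p)
    (fun h i i' hi p => unslide_map h i i' hi p)
    (fun p hp => by rw [relG_slide, hp]; group) unslide_slide slide_unslide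
    (fun p hp => by
      have h := relG_slide (unslide (fun a => a⁻¹) p)
      rw [slide_unslide, hp, eq_comm, conj_eq_one_iff] at h
      exact h)

/-- The swap of the first two handles. -/
def swapM : Move (g + 2) r :=
  ofGroup (fun i p => swapH i p) (fun i p => unswapH i p) (fun h i i' hi p => swapH_map h i i' hi p)
    (fun h i i' hi p => unswapH_map h i i' hi p)
    (fun p hp => by rw [relG_swapH, hp]) unswapH_swapH swapH_unswapH
    (fun p hp => by rw [← relG_swapH, swapH_unswapH, hp])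

/-- The rotation. -/
def rotM : Move (g + 2) r :=
  ofGroup (fun _ p => rot p) (fun _ p => unrot p) (fun _ _ _ _ _ => rfl) (fun _ _ _ _ _ => rfl)
    (fun p hp => by rw [relG_rot, hp]; group) unrot_rot rot_unrot
    (fun p hp => by
      have h := relG_rot (unrot p)
      rw [rot_unrot, hp] at h
      set c := (unrot p).1 0 * (unrot p).2 0 * ((unrot p).1 0)⁻¹ * ((unrot p).2 0)⁻¹
      calc relG (unrot p) = c * (c⁻¹ * relG (unrot p) * c) * c⁻¹ := by group
        _ = 1 := by rw [← h]; group)

end Move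

end Vale.Agent.P002
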