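import Vale.Agent.P002.Cyc

/-!
At the base point the velocities of the flows span the tangent space.
-/

namespace Vale.Agent.P002

open Matrix Complex
open Fin.NatCast

variable {m g : ℕ}

/-- The base point on the locus. -/
noncomputable def A0 (g : ℕ) (c : ℂ) : Fin (g + 2) → Mat (m + 2) ℂ :=
  Fin.cons (cyc fun _ => c) (Fin.cons (diagonal (dd m)) fun _ => 1)

theorem detA_cons {X Y : Mat (m + 2) ℂ} (hX : X.det = 1) (hY : Y.det = 1) :
    DetA (Fin.cons X (Fin.cons Y fun _ => 1) : Fin (g + 2) → Mat (m + 2) ℂ) :=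
  fun i => Fin.cases hX (fun i => Fin.cases hY (fun _ => det_one) i) i

theorem slide_iter : ∀ (k : ℕ) {X Y : Mat (m + 2) ℂ}, X.det = 1 → Y.det = 1 →
    (slideL.iter k).act (Fin.cons X (Fin.cons Y fun _ => 1) : Fin (g + 2) → Mat (m + 2) ℂ) =
      Fin.cons (adjugate Y ^ k * X) (Fin.cons Y fun _ => 1) ∧
    ∀ β : Fin (g + 2) → Mat (m + 2) ℂ,
      (slideL.iter k).push (Fin.cons X (Fin.cons Y fun _ => 1)) β 0 = β 0 ∧
      ∀ i : Fin g, (slideL.iter k).push (Fin.cons X (Fin.cons Y fun _ => 1)) β i.succ.succ =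
        Y ^ k * β i.succ.succ * adjugate Y ^ k
  | 0, X, Y, _, _ => by simp [LMove.iter, LMove.idL]
  | k + 1, X, Y, hX, hY => by
    have hX' : (adjugate Y * X).det = 1 := by
      rw [det_mul, det_adjugate, hY, hX, one_pow, one_mul]
    obtain ⟨ha, hp⟩ := slide_iter k hX' hY
    have e : slideL.act (Fin.cons X (Fin.cons Y fun _ => 1) : Fin (g + 2) → Mat (m + 2) ℂ) =
        Fin.cons (adjugate Y * X) (Fin.cons Y fun _ => 1) := by
      funext i
      refine Fin.cases ?_ (fun i => Fin.cases ?_ (fun i => ?_) i) i <;>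
        simp [slideL, adjugate_mul, hY]
    refine ⟨?_, fun β => ⟨?_, fun i => ?_⟩⟩
    · change (slideL.iter k).act (slideL.act _) = _
      rw [e, ha, pow_succ, mul_assoc]
    · change slideL.push (Fin.cons X (Fin.cons Y fun _ => 1))
        ((slideL.iter k).push (slideL.act (Fin.cons X (Fin.cons Y fun _ => 1))) β) 0 = _
      rw [e]
      have h2 := (hp β).1
      generalize (slideL.iter k).push _ β = γ at h2 ⊢
      simpa [slideL] using h2
    · change slideL.push (Fin.cons X (Fin.cons Y fun _ => 1))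
        ((slideL.iter k).push (slideL.act (Fin.cons X (Fin.cons Y fun _ => 1))) β) i.succ.succ = _
      rw [e]
      have h2 := (hp β).2 i
      generalize (slideL.iter k).push _ β = γ at h2 ⊢
      simp [slideL, h2, pow_succ' Y, pow_succ (adjugate Y), mul_assoc]

theorem offdiag_mem (W : Submodule ℂ (Mat (m + 2) ℂ))
    (h : ∀ a b, a ≠ b → single a b (1 : ℂ) ∈ W) (M : Mat (m + 2) ℂ) (hM : ∀ a, M a a = 0) :
    M ∈ W := by
  rw [matrix_eq_sum_single M]
  refine W.sum_mem fun a _ => W.sum_mem fun b _ => ?_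
  by_cases hab : a = b
  · subst hab; simp [hM]
  · rw [show single a b (M a b) = M a b • single a b (1 : ℂ) by simp [smul_single]]
    exact W.smul_mem _ (h a b hab)

theorem diag_mem (W : Submodule ℂ (Mat (m + 2) ℂ))
    (h : ∀ b, single b b (1 : ℂ) - ((m + 2 : ℕ) : ℂ)⁻¹ • 1 ∈ W) (y : Fin (m + 2) → ℂ)
    (hy : ∑ b, y b = 0) : diagonal y ∈ W := by
  have e : diagonal y = ∑ b, y b • (single b b (1 : ℂ) - ((m + 2 : ℕ) : ℂ)⁻¹ • 1) := by
    simp only [smul_sub, Finset.sum_sub_distrib, ← Finset.sum_smul, hy, zero_smul, sub_zero,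
      smul_single, smul_eq_mul, mul_one]
    exact (sum_single_eq_diagonal y).symm
  rw [e]
  exact W.sum_mem fun b _ => W.smul_mem _ (h b)

theorem pw_diagonal (y : Fin (m + 2) → ℂ) (k : ℕ) :
    pw (diagonal y) k = ∑ b, y b ^ k • (single b b (1 : ℂ) - ((m + 2 : ℕ) : ℂ)⁻¹ • 1) := by
  simp only [pw, diagonal_pow, trace_diagonal, smul_sub, Finset.sum_sub_distrib, ← Finset.sum_smul,
    smul_smul, smul_single, smul_eq_mul, mul_one, ← Finset.sum_mul, div_eq_mul_inv]
  rw [sum_single_eq_diagonal]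
  rfl

theorem cyc_pow_eq_sum (x : Fin (m + 2) → ℂ) (k : ℕ) :
    cyc x ^ k = ∑ b, single (b + (k : Fin (m + 2))) b (win x k b) := by
  ext a b
  rw [cyc_pow, Matrix.sum_apply, Finset.sum_eq_single b]
  · simp [Matrix.single_apply, eq_comm]
  · intro b' _ h; simp [h]
  · simp

theorem win_mul (x y : Fin (m + 2) → ℂ) (k : ℕ) (b : Fin (m + 2)) :
    win (x * y) k b = win x k b * win y k b := Finset.prod_mul_distrib

theorem win_pow (x : Fin (m + 2) → ℂ) (n k : ℕ) (b : Fin (m + 2)) :
    win (x ^ n) k b = win x k b ^ n := Finset.prod_pow _ _ _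

theorem win_inv (x : Fin (m + 2) → ℂ) (k : ℕ) (b : Fin (m + 2)) :
    win x⁻¹ k b = (win x k b)⁻¹ := Finset.prod_inv_distrib _

theorem win_const (c : ℂ) (k : ℕ) (b : Fin (m + 2)) : win (fun _ => c) k b = c ^ k := by
  simp [win]

theorem win_shift (x : Fin (m + 2) → ℂ) (k : ℕ) (b : Fin (m + 2)) :
    x b * win x k b = win x k (b - 1) * x (b + (k : Fin (m + 2))) := by
  have h1 := Finset.prod_range_succ (fun j => x (b + (j : Fin (m + 2)))) k
  have h2 := Finset.prod_range_succ' (fun j => x (b + (j : Fin (m + 2)))) k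
  have e1 : win x k (b - 1) = ∏ j ∈ Finset.range k, x (b + (j : Fin (m + 2))) :=
    Finset.prod_congr rfl fun j _ => by congr 1; abel
  have e2 : win x k b = ∏ j ∈ Finset.range k, x (b + ((j + 1 : ℕ) : Fin (m + 2))) :=
    Finset.prod_congr rfl fun j _ => by rw [Nat.cast_add, Nat.cast_one, ← add_assoc]
  rw [e1, e2, mul_comm, ← h1, h2]
  simp

theorem single_mem_of_shifts (W : Submodule ℂ (Mat (m + 2) ℂ))
    (h : ∀ k, 1 ≤ k → k < m + 2 → ∀ b,
      ∃ w : ℂ, w ≠ 0 ∧ single (b + (k : Fin (m + 2))) b w ∈ W)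
    (a b : Fin (m + 2)) (hab : a ≠ b) : single a b (1 : ℂ) ∈ W := by
  have hk : 1 ≤ (a - b).val := by
    rw [Nat.one_le_iff_ne_zero]
    exact fun h => hab (sub_eq_zero.1 (Fin.ext h))
  obtain ⟨w, hw, hmem⟩ := h (a - b).val hk (a - b).isLt b
  rw [Fin.cast_val_eq_self, add_sub_cancel] at hmem
  have := W.smul_mem w⁻¹ hmem
  rwa [smul_single, smul_eq_mul, inv_mul_cancel₀ hw] at this

section

variable {c : ℂ}

/-- The second components of velocities at the base point. -/
noncomputable def BB (g : ℕ) (c : ℂ) : Submodule ℂ (Fin (g + 2) → Mat (m + 2) ℂ) :=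
  Submodule.span ℂ (Set.range fun p => (vel (A0 (m := m) g c) p).2)

theorem detA_A0 (hd : (cyc fun _ : Fin (m + 2) => c).det = 1) : DetA (A0 (m := m) g c) :=
  detA_cons hd det_dd

theorem push_mem (hd : (cyc fun _ : Fin (m + 2) => c).det = 1) (M : LMove (g + 2) (m + 2))
    (i : Fin (g + 2)) (k : ℕ) :
    M.push (A0 g c) (Pi.single i (pw (M.act (A0 g c) i) k)) ∈ BB (m := m) g c :=
  Submodule.subset_span ⟨(M, i, k), vel_snd (Nat.succ_ne_zero _) (detA_A0 hd) (M, i, k)⟩

/-- The tuples whose entries in the handles other than `0`, `1` and those in `s` vanish. -/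
def Supp (m : ℕ) {g : ℕ} (s : Set (Fin g)) : Submodule ℂ (Fin (g + 2) → Mat (m + 2) ℂ) where
  carrier := {β | ∀ i, i ∉ s → β i.succ.succ = 0}
  add_mem' ha hb i hi := by simp [ha i hi, hb i hi]
  zero_mem' i _ := rfl
  smul_mem' c β h i hi := by simp [h i hi]

theorem offdiag_slot_zero (hd : (cyc fun _ : Fin (m + 2) => c).det = 1) (hc : c ≠ 0)
    (M : Mat (m + 2) ℂ) (hM : ∀ a, M a a = 0) :
    M ∈ (BB (m := m) g c ⊓ Supp m ∅).map
      (LinearMap.proj (R := ℂ) (φ := fun _ => Mat (m + 2) ℂ) 0) := by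
  refine offdiag_mem _ (single_mem_of_shifts _ fun k h1 h2 b =>
    ⟨c ^ k, pow_ne_zero _ hc, ?_⟩) M hM
  refine mem_of_powers _ (fun b => (win (dd m) k b)⁻¹)
    (inv_injective.comp (win_dd_injective h1 h2))
    (fun b => single (b + (k : Fin (m + 2))) b (c ^ k)) (fun n => ?_) b
  obtain ⟨ha, hp⟩ := slide_iter n (g := g) hd (det_dd (m := m))
  have h := push_mem (g := g) hd (slideL.iter n) 0 k
  have hs : (slideL.iter n).act (A0 g c) 0 = cyc ((dd m)⁻¹ ^ n * fun _ => c) := by
    rw [A0, ha, Fin.cons_zero, adjugate_dd, diagonal_pow, diagonal_mul_cyc]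
  rw [hs, pw_cyc _ h1 h2] at h
  refine ⟨_, ⟨h, fun i _ => ?_⟩, ?_⟩
  · rw [A0, (hp _).2 i, Pi.single_eq_of_ne (Fin.succ_ne_zero _), mul_zero, zero_mul]
  · rw [LinearMap.proj_apply, A0, (hp _).1, Pi.single_eq_same, cyc_pow_eq_sum]
    refine Finset.sum_congr rfl fun b _ => ?_
    rw [win_mul, win_pow, win_inv, win_const, smul_single, smul_eq_mul]

theorem diag_slot_one (hd : (cyc fun _ : Fin (m + 2) => c).det = 1) (y : Fin (m + 2) → ℂ)
    (hy : ∑ b, y b = 0) :
    (Pi.single 1 (diagonal y) : Fin (g + 2) → Mat (m + 2) ℂ) ∈ BB (m := m) g c := by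
  refine diag_mem ((BB (m := m) g c).comap
    (LinearMap.single ℂ (fun _ : Fin (g + 2) => Mat (m + 2) ℂ) 1)) ?_ y hy
  intro b
  refine mem_of_powers _ (dd m) dd_injective
    (fun b => single b b (1 : ℂ) - ((m + 2 : ℕ) : ℂ)⁻¹ • 1) (fun k => ?_) b
  have h := push_mem (g := g) hd LMove.idL 1 k
  rw [← pw_diagonal]
  exact h

theorem diag_slot (hd : (cyc fun _ : Fin (m + 2) => c).det = 1) (i : Fin g)
    (y : Fin (m + 2) → ℂ) (hy : ∑ b, y b = 0) :
    diagonal y ∈ (BB (m := m) g c ⊓ Supp m {i}).map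
      (LinearMap.proj (R := ℂ) (φ := fun _ => Mat (m + 2) ℂ) i.succ.succ) := by
  refine diag_mem _ ?_ y hy
  intro b
  refine mem_of_powers _ (dd m)⁻¹ (inv_injective.comp dd_injective)
    (fun b => single b b (1 : ℂ) - ((m + 2 : ℕ) : ℂ)⁻¹ • 1) (fun k => ?_) b
  obtain ⟨M, hM⟩ := exists_permL (r := m + 2) (Equiv.swap (0 : Fin (g + 2)) i.succ.succ)
  have h := push_mem (g := g) hd (M.comp slideL) 0 k
  have hA := detA_A0 (g := g) hd
  have e1 : (Equiv.swap (0 : Fin (g + 2)) i.succ.succ) 1 = 1 :=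
    Equiv.swap_apply_of_ne_of_ne (by simp) (by simp [Fin.ext_iff])
  have ea : (M.comp slideL).act (A0 g c) 0 = diagonal (dd m)⁻¹ := by
    change slideL.act (M.act _) 0 = _
    rw [(hM _ hA).1]
    simp only [slideL, Fin.cons_zero, Function.comp_apply, e1, Equiv.swap_apply_left, A0,
      Fin.cons_one, Fin.cons_succ, adjugate_dd, mul_one]
  rw [ea, pw_diagonal] at h
  change M.push (A0 g c) (slideL.push (M.act (A0 g c)) _) ∈ _ at h
  rw [(hM _ hA).2, Equiv.symm_swap] at h
  refine ⟨_, ⟨h, fun j hj => ?_⟩, ?_⟩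
  · have ej : (Equiv.swap (0 : Fin (g + 2)) i.succ.succ) j.succ.succ = j.succ.succ :=
      Equiv.swap_apply_of_ne_of_ne (Fin.succ_ne_zero _) (by simpa using hj)
    simp [slideL, ej]
  · simp [slideL]

theorem offdiag_slot (hd : (cyc fun _ : Fin (m + 2) => c).det = 1) (hc : c ≠ 0) (i : Fin g)
    (M : Mat (m + 2) ℂ) (hM : ∀ a, M a a = 0) :
    M ∈ (BB (m := m) g c ⊓ Supp m {i}).map
      (LinearMap.proj (R := ℂ) (φ := fun _ => Mat (m + 2) ℂ) i.succ.succ) := by
  refine offdiag_mem _ (fun a b hab => ?_) M hM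
  -- the roles of rows and columns are exchanged here
  let W := Submodule.comap (transposeLinearEquiv (Fin (m + 2)) (Fin (m + 2)) ℂ ℂ).toLinearMap
    ((BB (m := m) g c ⊓ Supp m {i}).map
      (LinearMap.proj (R := ℂ) (φ := fun _ => Mat (m + 2) ℂ) i.succ.succ))
  suffices hW : ∀ k, 1 ≤ k → k < m + 2 → ∀ b, single (b + (k : Fin (m + 2))) b (c⁻¹ ^ k) ∈ W by
    have h := single_mem_of_shifts W
      (fun k h1 h2 b => ⟨c⁻¹ ^ k, pow_ne_zero _ (inv_ne_zero hc), hW k h1 h2 b⟩) b a hab.symm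
    simpa [W] using h
  intro k h1 h2 b
  rw [Submodule.mem_comap]
  change (single (b + (k : Fin (m + 2))) b (c⁻¹ ^ k))ᵀ ∈ _
  rw [transpose_single]
  refine mem_of_powers _ (fun b => win (dd m) k (b - 1))
    ((win_dd_injective h1 h2).comp (sub_left_injective))
    (fun b => single b (b + (k : Fin (m + 2))) (c⁻¹ ^ k)) (fun n => ?_) b
  obtain ⟨ha, hp⟩ := slide_iter n (g := g) hd (det_dd (m := m))
  let π := Equiv.swap (0 : Fin (g + 2)) i.succ.succ * Equiv.swap 1 i.succ.succ
  obtain ⟨M, hM⟩ := exists_permL (r := m + 2) π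
  have hν : DetA ((slideL.iter n).act (A0 (m := m) g c)) := LMove.det_act _ (detA_A0 hd)
  have h := push_mem (g := g) hd (((slideL.iter n).comp M).comp slideL) 0 k
  have n1 : (1 : Fin (g + 2)) ≠ i.succ.succ := by simp [Fin.ext_iff]
  have p0 : π 0 = i.succ.succ := by
    simp [π, Equiv.swap_apply_of_ne_of_ne, Ne.symm (Fin.succ_ne_zero i.succ)]
  have p1 : π 1 = 0 := by simp [π]
  have ea : (((slideL.iter n).comp M).comp slideL).act (A0 (m := m) g c) 0 =
      (cyc ((dd m) ^ n * fun _ => c⁻¹))ᵀ := by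
    change slideL.act (M.act ((slideL.iter n).act (A0 g c))) 0 = _
    rw [(hM _ hν).1, A0, ha]
    simp only [slideL, Fin.cons_zero, Function.comp_apply, p0, p1, Fin.cons_succ, mul_one]
    rw [adjugate_mul_distrib, adjugate_cyc hc hd, adjugate_pow, adjugate_adjugate _ (by simp),
      det_dd, one_pow, one_smul, diagonal_pow, ← diagonal_mul_cyc, transpose_mul,
      diagonal_transpose]
  have ep : pw (cyc ((dd m) ^ n * fun _ => c⁻¹))ᵀ k = (cyc ((dd m) ^ n * fun _ => c⁻¹) ^ k)ᵀ := by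
    simp [pw, ← transpose_pow, trace_cyc_pow _ h1 h2]
  rw [ea, ep] at h
  change (slideL.iter n).push (A0 g c) (M.push ((slideL.iter n).act (A0 g c))
    (slideL.push (M.act ((slideL.iter n).act (A0 g c))) _)) ∈ _ at h
  rw [(hM _ hν).2] at h
  refine ⟨_, ⟨h, fun j hj => ?_⟩, ?_⟩
  · have ej : π.symm j.succ.succ = j.succ.succ := by
      have h' : j.succ.succ ≠ i.succ.succ := by simpa using hj
      simp [π, Equiv.symm_apply_eq, Equiv.swap_apply_of_ne_of_ne, h', Fin.ext_iff]
    rw [A0, (hp _).2 j]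
    simp [slideL, ej]
  · have ei : π.symm i.succ.succ = 0 := by rw [Equiv.symm_apply_eq, p0]
    rw [LinearMap.proj_apply, A0, (hp _).2 i]
    simp only [Function.comp_apply, ei, slideL, Fin.cons_zero, Pi.single_eq_same]
    rw [adjugate_dd, diagonal_pow, diagonal_pow, cyc_pow_eq_sum, transpose_sum, Finset.mul_sum,
      Finset.sum_mul]
    refine Finset.sum_congr rfl fun b _ => ?_
    ext u v
    simp only [win_mul, win_pow, win_const, transpose_single, diagonal_mul, mul_diagonal,
      Matrix.smul_apply, Matrix.single_apply, smul_eq_mul, Pi.pow_apply, Pi.inv_apply]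
    split_ifs with huv
    · obtain ⟨rfl, rfl⟩ := huv
      have hd' := dd_ne_zero (b + (k : Fin (m + 2)))
      rw [inv_pow (dd m _) n]
      field_simp
      rw [← mul_pow, ← mul_pow, win_shift, mul_comm (win (dd m) k (b - 1))]
    · simp

theorem dRel_eq (β : Fin (g + 2) → Mat (m + 2) ℂ) (hβ : β ∈ Supp m (g := g) ∅) :
    dRel (A0 g c) β = cyc (fun _ => c) * β 0 * adjugate (cyc fun _ => c) - β 0 +
      (diagonal (dd m) * β 1 * diagonal (dd m)⁻¹ - β 1) := by
  simp [-adjugate_diagonal, dRel, Fin.sum_univ_succ, A0, hβ _ (Set.notMem_empty _), adjugate_dd]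
  abel

theorem mem_BB (hd : (cyc fun _ : Fin (m + 2) => c).det = 1) (hc : c ≠ 0)
    (β : Fin (g + 2) → Mat (m + 2) ℂ) (ht : ∀ i, (β i).trace = 0)
    (hr : dRel (A0 g c) β = 0) : β ∈ BB (m := m) g c := by
  have hK : ∀ w ∈ BB (m := m) g c, (∀ i, (w i).trace = 0) ∧ dRel (A0 g c) w = 0 := by
    intro w hw
    induction hw using Submodule.span_induction with
    | mem y hy =>
      obtain ⟨p, rfl⟩ := hy
      exact (tang_vel (Nat.succ_ne_zero _) (detA_A0 hd) p).2
    | zero => exact ⟨fun i => by simp, by simp [dRel]⟩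
    | add y z _ _ hy hz =>
      refine ⟨fun i => by simp [hy.1 i, hz.1 i], ?_⟩
      have : dRel (A0 g c) (y + z) = dRel (A0 g c) y + dRel (A0 g c) z := by
        simp only [dRel, Pi.add_apply, mul_add, add_mul]
        rw [← Finset.sum_add_distrib]
        exact Finset.sum_congr rfl fun i _ => by abel
      rw [this, hy.2, hz.2, add_zero]
    | smul a y _ hy =>
      refine ⟨fun i => by simp [hy.1 i], ?_⟩
      have : dRel (A0 g c) (a • y) = a • dRel (A0 g c) y := by
        simp [dRel, Finset.smul_sum, smul_sub]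
      rw [this, hy.2, smul_zero]
  have step : ∀ i : Fin g, ∃ w ∈ BB (m := m) g c ⊓ Supp m {i}, w i.succ.succ = β i.succ.succ := by
    intro i
    have hdi := diag_slot (g := g) hd i (fun a => β i.succ.succ a a) (ht i.succ.succ)
    have hof := offdiag_slot (g := g) hd hc i
      (β i.succ.succ - diagonal fun a => β i.succ.succ a a) (by simp)
    have := Submodule.add_mem _ hdi hof
    rw [add_sub_cancel] at this
    exact Submodule.mem_map.1 this
  choose w hw hwv using step
  have hsum : ∑ i, w i ∈ BB (m := m) g c := Submodule.sum_mem _ fun i _ => (hw i).1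
  set γ := β - ∑ i, w i with hγ
  suffices hmem : γ ∈ BB (m := m) g c by
    have := Submodule.add_mem _ hmem hsum
    rwa [sub_add_cancel] at this
  have hγt : ∀ i, (γ i).trace = 0 := fun i => by
    rw [hγ, Pi.sub_apply, trace_sub, ht i, (hK _ hsum).1 i, sub_zero]
  have hγr : dRel (A0 g c) γ = 0 := by
    have : dRel (A0 g c) γ = dRel (A0 g c) β - dRel (A0 g c) (∑ i, w i) := by
      simp only [hγ, dRel, Pi.sub_apply, mul_sub, sub_mul]
      rw [← Finset.sum_sub_distrib]
      exact Finset.sum_congr rfl fun i _ => by abel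
    rw [this, hr, (hK _ hsum).2, sub_zero]
  have hγs : γ ∈ Supp m (g := g) ∅ := fun i _ => by
    rw [hγ, Pi.sub_apply, Finset.sum_apply, Finset.sum_eq_single i, hwv i, sub_self]
    · intro j _ hj
      exact (hw j).2 i (by simpa using Ne.symm hj)
    · simp
  have hdiag : ∀ a, γ 0 a a = 0 := by
    have hst : ∀ a, γ 0 (a + 1) (a + 1) = γ 0 a a := fun a => by
      have h := congrFun (congrFun ((dRel_eq γ hγs).symm.trans hγr) (a + 1)) (a + 1)
      rw [adjugate_cyc hc hd] at h
      simp only [Matrix.add_apply, Matrix.sub_apply, Matrix.zero_apply, mul_diagonal, diagonal_mul,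
        Pi.inv_apply] at h
      rw [mul_right_comm (dd m _), mul_inv_cancel₀ (dd_ne_zero _), one_mul, sub_self, add_zero] at h
      simp [Matrix.mul_apply, cyc, mul_right_comm c _ c⁻¹, mul_inv_cancel₀ hc] at h
      exact (sub_eq_zero.1 h).symm
    have hall : ∀ a, γ 0 a a = γ 0 0 0 := by
      have : ∀ n : ℕ, γ 0 (n : Fin (m + 2)) (n : Fin (m + 2)) = γ 0 0 0 := by
        intro n
        induction n with
        | zero => simp
        | succ n ih => rw [Nat.cast_succ, hst, ih]
      intro a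
      simpa using this a.val
    have h0 := hγt 0
    simp only [Matrix.trace, Matrix.diag, hall, Finset.sum_const, Finset.card_univ,
      Fintype.card_fin] at h0
    intro a
    rw [hall a]
    exact (smul_eq_zero.1 h0).resolve_left (Nat.succ_ne_zero _)
  obtain ⟨w0, hw0, hw0v⟩ := Submodule.mem_map.1 (offdiag_slot_zero (g := g) hd hc (γ 0) hdiag)
  rw [LinearMap.proj_apply] at hw0v
  suffices hmem : γ - w0 ∈ BB (m := m) g c by
    have := Submodule.add_mem _ hmem hw0.1
    rwa [sub_add_cancel] at this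
  have hs : γ - w0 ∈ Supp m (g := g) ∅ := Submodule.sub_mem _ hγs hw0.2
  have hrel : dRel (A0 g c) (γ - w0) = 0 := by
    have : dRel (A0 g c) (γ - w0) = dRel (A0 g c) γ - dRel (A0 g c) w0 := by
      simp only [dRel, Pi.sub_apply, mul_sub, sub_mul]
      rw [← Finset.sum_sub_distrib]
      exact Finset.sum_congr rfl fun i _ => by abel
    rw [this, hγr, (hK _ hw0.1).2, sub_zero]
  have h0 : (γ - w0) 0 = 0 := by simp [hw0v]
  rw [dRel_eq _ hs, h0, mul_zero, zero_mul, sub_zero, zero_add] at hrel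
  have hd1 : ∀ a b, a ≠ b → (γ - w0) 1 a b = 0 := fun a b hab => by
    have h := congrFun (congrFun hrel a) b
    simp only [Matrix.sub_apply, mul_diagonal, diagonal_mul, Pi.inv_apply, Matrix.zero_apply] at h
    have : (dd m a * (dd m b)⁻¹ - 1) * (γ - w0) 1 a b = 0 := by linear_combination h
    refine (mul_eq_zero.1 this).resolve_left fun h' => hab (dd_injective ?_)
    have hb := dd_ne_zero (m := m) b
    field_simp at h'
    simpa [sub_eq_zero] using h'
  have heq : γ - w0 =
      (Pi.single 1 (diagonal fun a => (γ - w0) 1 a a) : Fin (g + 2) → Mat (m + 2) ℂ) := by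
    funext i
    refine Fin.cases ?_ (fun i => Fin.cases ?_ (fun i => ?_) i) i
    · simp [h0]
    · ext a b
      by_cases hab : a = b
      · subst hab; simp
      · simpa [hab] using hd1 a b hab
    · rw [hs i (Set.notMem_empty _), Pi.single_eq_of_ne (by simp [Fin.ext_iff])]
  rw [heq]
  refine diag_slot_one hd _ ?_
  have := (hK _ hw0.1).1 1
  have h2 := hγt 1
  simp only [Matrix.trace, Matrix.diag] at this h2
  simp [Finset.sum_sub_distrib, this, h2]

/-- The base point generates the whole matrix algebra. -/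
theorem adjoin_A0 (hc : c ≠ 0) :
    Algebra.adjoin ℂ (Set.range (A0 (m := m) g c)) = ⊤ := by
  set X := Algebra.adjoin ℂ (Set.range (A0 (m := m) g c)) with hX
  have hP : cyc (fun _ => c) ∈ X := Algebra.subset_adjoin ⟨0, rfl⟩
  have hD : diagonal (dd m) ∈ X := Algebra.subset_adjoin ⟨1, by simp [A0]⟩
  have hE : ∀ b, single b b (1 : ℂ) ∈ X := mem_of_powers (Subalgebra.toSubmodule X) (dd m)
    dd_injective (fun b => single b b (1 : ℂ)) fun k => by
      have : ∑ b, dd m b ^ k • single b b (1 : ℂ) = diagonal (dd m) ^ k := by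
        simp only [diagonal_pow, smul_single, smul_eq_mul, mul_one]
        exact sum_single_eq_diagonal _
      rw [this]
      exact pow_mem hD k
  refine Algebra.eq_top_iff.2 fun M => ?_
  rw [matrix_eq_sum_single M]
  refine sum_mem fun a _ => sum_mem fun b _ => ?_
  have e : single a b (M a b) = (M a b * (c⁻¹) ^ (a - b).val) •
      (single a a (1 : ℂ) * cyc (fun _ => c) ^ (a - b).val * single b b (1 : ℂ)) := by
    rw [Matrix.single_mul_mul_single, smul_single, cyc_pow, if_pos (by simp), win_const,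
      smul_eq_mul, one_mul, mul_one, mul_assoc, ← mul_pow, inv_mul_cancel₀ hc, one_pow, mul_one]
  rw [e]
  exact Subalgebra.smul_mem _ (mul_mem (mul_mem (hE a) (pow_mem hP _)) (hE b)) _

end

end Vale.Agent.P002
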