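import Vale.Agent.P002.Moves

/-!
Velocities of the flows at a point of the locus, and the criterion for the neighbourhood statement.
-/

namespace Vale.Agent.P002

open Matrix Complex Filter Topology
open scoped Matrix.Norms.Operator

variable {n r : ℕ}

/-- The derivative of the relation at a point of the locus. -/
def dRel (A β : Fin n → Mat r ℂ) : Mat r ℂ := ∑ i, (A i * β i * adjugate (A i) - β i)

theorem hasDerivAt_prod_ofFn : ∀ {n : ℕ} (c : ℂ → Fin n → Mat r ℂ) (δ : Fin n → Mat r ℂ),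
    (∀ i, HasDerivAt (fun s => c s i) (δ i) 0) → (∀ i, c 0 i = 1) →
    HasDerivAt (fun s => (List.ofFn (c s)).prod) (∑ i, δ i) 0
  | 0, c, δ, _, _ => by
    simp only [List.ofFn_zero, List.prod_nil, Finset.univ_eq_empty, Finset.sum_empty]
    exact hasDerivAt_const (0 : ℂ) (1 : Mat r ℂ)
  | n + 1, c, δ, h, h0 => by
    have ih := hasDerivAt_prod_ofFn (fun s i => c s i.succ) (fun i => δ i.succ) (fun i => h i.succ)
      fun i => h0 i.succ
    simp only [List.ofFn_succ, List.prod_cons]
    refine ((h 0).mul ih).congr_deriv ?_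
    rw [Fin.sum_univ_succ, h0 0, one_mul]
    congr 1
    rw [List.prod_eq_one (by
      intro x hx
      obtain ⟨i, rfl⟩ := List.mem_ofFn.1 hx
      exact h0 i.succ), mul_one]

theorem hasDerivAt_rel {γ : ℂ → Tup n (Mat r ℂ)} (hd : ∀ s, DetOne (γ s)) {A : Fin n → Mat r ℂ}
    (hA : DetA A) (h0 : γ 0 = locus A) {η β : Fin n → Mat r ℂ}
    (hη : ∀ i, HasDerivAt (fun s => (γ s).1 i) (η i) 0)
    (hβ : ∀ i, HasDerivAt (fun s => (γ s).2 i) (β i) 0) :
    HasDerivAt (fun s => rel adjugate (γ s)) (dRel A β) 0 := by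
  have e1 : ∀ j, (γ 0).1 j = A j := fun j => by rw [h0]; rfl
  have e2 : ∀ j, (γ 0).2 j = 1 := fun j => by rw [h0]; rfl
  refine hasDerivAt_prod_ofFn
    (fun s i => (γ s).1 i * (γ s).2 i * adjugate ((γ s).1 i) * adjugate ((γ s).2 i)) _
    (fun i => ?_) fun i => by simp [e1, e2, hA.mul_adj]
  refine ((((hη i).mul (hβ i)).mul (hasDerivAt_adj (hη i) fun s => (hd s).1 i)).mul
    (hasDerivAt_adj (hβ i) fun s => (hd s).2 i)).congr_deriv ?_
  simp [e1, e2, add_mul, ← mul_assoc, hA.mul_adj]
  abel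

theorem detOne_flow (hr : r ≠ 0) (i : Fin n) (k : ℕ) (s : ℂ) {p : Tup n (Mat r ℂ)}
    (hp : DetOne p) : DetOne (flow i k s p) := by
  refine ⟨hp.1, fun j => ?_⟩
  by_cases h : j = i
  · subst h
    simp [flow, hp.2 j, det_exp, trace_smul, trace_pw hr]
  · simp [flow, h, hp.2 j]

/-- On the locus a flow preserves the relation exactly. -/
theorem isRep_flow_locus (hr : r ≠ 0) (i : Fin n) (k : ℕ) (s : ℂ) {A : Fin n → Mat r ℂ}
    (hA : DetA A) : IsRep (flow i k s (locus A)) := by
  have hd := detOne_flow hr i k s (detOne_locus hA)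
  refine ⟨hd, List.prod_eq_one fun x hx => ?_⟩
  obtain ⟨j, rfl⟩ := List.mem_ofFn.1 hx
  by_cases h : j = i
  · subst h
    have hc : Commute (A j) (NormedSpace.exp (s • pw (A j) k)) := by
      refine Commute.exp_right ?_
      refine Commute.smul_right ?_ s
      exact (Commute.pow_right (Commute.refl _) k).sub_right ((Commute.one_right _).smul_right _)
    have hb : (NormedSpace.exp (s • pw (A j) k)).det = 1 := by
      simpa [flow, locus] using hd.2 j
    simp only [flow, locus, Function.update_self, one_mul]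
    rw [hc.eq, mul_assoc (NormedSpace.exp _), hA.mul_adj, mul_one, mul_adjugate, hb, one_smul]
  · simp [flow, locus, h, hA.mul_adj]

/-- A move, a handle and a power. -/
abbrev Idx (n r : ℕ) : Type _ := LMove n r × Fin n × ℕ

/-- The flow with given data. -/
def toFlw (p : Idx n r) : Flw n r := ⟨p.1.m, p.2.1, p.2.2, p.1.onLocus⟩

theorem step_locus (A : Fin n → Mat r ℂ) (hA : DetA A) (p : Idx n r) (s : ℂ) :
    (toFlw p).step s (locus A) = p.1.m.f' ℂ (flow p.2.1 p.2.2 s (locus (p.1.act A))) := by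
  simp only [toFlw, Flw.step, p.1.f_eq A hA]

/-- The velocity of a flow at a point of the locus. -/
noncomputable def vel (A : Fin n → Mat r ℂ) (p : Idx n r) : Tup n (Mat r ℂ) :=
  deriv (fun s => (toFlw p).step s (locus A)) 0

theorem hasDerivAt_vel (A : Fin n → Mat r ℂ) (p : Idx n r) :
    HasDerivAt (fun s => (toFlw p).step s (locus A)) (vel A p) 0 :=
  ((((toFlw p).contDiff_step.comp (contDiff_id.prodMk contDiff_const)).differentiable
    one_ne_zero) 0).hasDerivAt

theorem hasDerivAt_fst_apply {γ : ℂ → Tup n (Mat r ℂ)} {v : Tup n (Mat r ℂ)}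
    (h : HasDerivAt γ v 0) (i : Fin n) : HasDerivAt (fun s => (γ s).1 i) (v.1 i) 0 :=
  hasDerivAt_pi.1 (hasFDerivAt_fst.comp_hasDerivAt 0 h :) i

theorem hasDerivAt_snd_apply {γ : ℂ → Tup n (Mat r ℂ)} {v : Tup n (Mat r ℂ)}
    (h : HasDerivAt γ v 0) (i : Fin n) : HasDerivAt (fun s => (γ s).2 i) (v.2 i) 0 :=
  hasDerivAt_pi.1 (hasFDerivAt_snd.comp_hasDerivAt 0 h :) i

theorem vel_snd (hr : r ≠ 0) {A : Fin n → Mat r ℂ} (hA : DetA A) (p : Idx n r) :
    (vel A p).2 = p.1.push A (Pi.single p.2.1 (pw (p.1.act A p.2.1) p.2.2)) := by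
  obtain ⟨M, i, k⟩ := p
  funext j
  have hν := M.det_act hA
  have hb : ∀ l, HasDerivAt (fun s => (flow i k s (locus (M.act A))).2 l)
      ((Pi.single i (pw (M.act A i) k) : Fin n → Mat r ℂ) l) 0 := fun l => by
    by_cases h : l = i
    · subst h
      simpa [flow, locus] using hasDerivAt_exp_smul (pw (M.act A l) k)
    · simp only [flow, locus, Function.update_of_ne h, Pi.single_eq_of_ne h]
      exact hasDerivAt_const (0 : ℂ) (1 : Mat r ℂ)
  have h1 := M.tang A hA (fun s => flow i k s (locus (M.act A)))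
    (fun s => detOne_flow hr i k s (detOne_locus hν)) (flow_zero i k _) 0 _
    (fun l => hasDerivAt_const (0 : ℂ) _) hb j
  have h2 := hasDerivAt_snd_apply (hasDerivAt_vel A (M, i, k)) j
  simp only [step_locus A hA] at h2
  exact h2.unique h1

theorem isRep_step (hr : r ≠ 0) {A : Fin n → Mat r ℂ} (hA : DetA A) (p : Idx n r) (s : ℂ) :
    IsRep ((toFlw p).step s (locus A)) := by
  rw [step_locus A hA]
  exact p.1.m.rep_f' ℂ _ (isRep_flow_locus hr _ _ s (p.1.det_act hA))

/-- The tangent conditions at a point of the locus. -/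
def Tang (A : Fin n → Mat r ℂ) (e : Tup n (Mat r ℂ)) : Prop :=
  (∀ i, (adjugate (A i) * e.1 i).trace = 0) ∧ (∀ i, (e.2 i).trace = 0) ∧ dRel A e.2 = 0

theorem adjugate_eq_inv {a : Mat r ℂ} (h : a.det = 1) : a⁻¹ = adjugate a := by
  rw [Matrix.inv_def, h, Ring.inverse_one, one_smul]

theorem tang_vel (hr : r ≠ 0) {A : Fin n → Mat r ℂ} (hA : DetA A) (p : Idx n r) :
    Tang A (vel A p) := by
  have hv := hasDerivAt_vel A p
  have h0 : (toFlw p).step 0 (locus A) = locus A :=
    (toFlw p).step_zero _ (detOne_locus hA)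
  refine ⟨fun i => ?_, fun i => ?_, ?_⟩
  · have h := trace_eq_zero_of_det (hasDerivAt_fst_apply hv i)
      fun s => (isRep_step hr hA p s).1.1 i
    rw [h0] at h
    rwa [← adjugate_eq_inv (hA i)]
  · have h := trace_eq_zero_of_det (hasDerivAt_snd_apply hv i)
      fun s => (isRep_step hr hA p s).1.2 i
    rw [h0] at h
    simpa [locus] using h
  · have h := hasDerivAt_rel (fun s => (isRep_step hr hA p s).1) hA h0
      (hasDerivAt_fst_apply hv) (hasDerivAt_snd_apply hv)
    have e : (fun s => rel adjugate ((toFlw p).step s (locus A))) = fun _ => (1 : Mat r ℂ) :=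
      funext fun s => (isRep_step hr hA p s).2
    rw [e] at h
    exact h.unique (hasDerivAt_const 0 _)

theorem tang_of_fderiv_eqs {A : Fin n → Mat r ℂ} (hA : DetA A) {e : Tup n (Mat r ℂ)}
    (he : fderiv ℂ eqs (locus A) e = 0) : Tang A e := by
  have key : ∀ γ : ℂ → Tup n (Mat r ℂ), γ 0 = locus A → HasDerivAt γ e 0 →
      HasDerivAt (fun s => eqs (γ s)) 0 0 := fun γ h0 h => by
    have h1 : HasFDerivAt eqs (fderiv ℂ eqs (locus A)) (γ 0) := by
      rw [h0]
      exact ((contDiff_eqs (n := n) (r := r)).differentiable one_ne_zero (locus A)).hasFDerivAt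
    have h2 := h1.comp_hasDerivAt 0 h
    exact h2.congr_deriv he
  have hline : HasDerivAt (fun t : ℂ => locus A + t • e) e 0 := by
    have h := ((hasDerivAt_id (0 : ℂ)).smul_const e).const_add (locus A)
    rwa [one_smul] at h
  have hl := key _ (by rw [zero_smul, add_zero]) hline
  have ht1 : ∀ i, (adjugate (A i) * e.1 i).trace = 0 := fun i => by
    have h := hasDerivAt_det (hasDerivAt_fst_apply hline i)
      (by simp [locus, hA i])
    have h' : HasDerivAt (fun t : ℂ => ((locus A + t • e).1 i).det) 0 0 :=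
      hasDerivAt_pi.1 (hasFDerivAt_fst.comp_hasDerivAt 0 hl :) i
    have := h.unique h'
    simpa [locus, hA i, adjugate_eq_inv (hA i)] using this
  have ht2 : ∀ i, (e.2 i).trace = 0 := fun i => by
    have h := hasDerivAt_det (hasDerivAt_snd_apply hline i) (by simp [locus])
    have h' : HasDerivAt (fun t : ℂ => ((locus A + t • e).2 i).det) 0 0 :=
      hasDerivAt_pi.1 (hasFDerivAt_fst.comp_hasDerivAt 0
        (hasFDerivAt_snd.comp_hasDerivAt 0 hl :) :) i
    have := h.unique h'
    simpa [locus] using this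
  refine ⟨ht1, ht2, ?_⟩
  let γ : ℂ → Tup n (Mat r ℂ) := fun s =>
    (fun i => A i * NormedSpace.exp (s • (adjugate (A i) * e.1 i)),
      fun i => NormedSpace.exp (s • e.2 i))
  have h1 : ∀ i, HasDerivAt (fun s => (γ s).1 i) (e.1 i) 0 := fun i => by
    refine ((hasDerivAt_exp_smul _).const_mul (A i)).congr_deriv ?_
    rw [← mul_assoc, hA.mul_adj, one_mul]
  have h2 : ∀ i, HasDerivAt (fun s => (γ s).2 i) (e.2 i) 0 := fun i => hasDerivAt_exp_smul _
  have hd : ∀ s, DetOne (γ s) := fun s =>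
    ⟨fun i => by simp [γ, det_exp, trace_smul, hA i, ht1 i],
      fun i => by simp [γ, det_exp, trace_smul, ht2 i]⟩
  have h0 : γ 0 = locus A := by simp [γ, locus]
  have hγ : HasDerivAt γ e 0 := (hasDerivAt_pi.2 h1).prodMk (hasDerivAt_pi.2 h2)
  exact (hasDerivAt_rel hd hA h0 h1 h2).unique
    (hasFDerivAt_snd.comp_hasDerivAt 0 (hasFDerivAt_snd.comp_hasDerivAt 0 (key γ h0 hγ) :) :)

theorem psi_line {N : ℕ} {A : Fin n → Mat r ℂ} (hA : DetA A) (fl : Fin N → Flw n r) (j : Fin N)
    (s : ℂ) (hs : DetOne ((fl j).step s (locus A))) : ∀ k,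
    psi A fl k (0, Pi.single j s) =
      if (j : ℕ) < k then (fl j).step s (locus A) else locus A
  | 0 => by simp [psi, base_zero]
  | k + 1 => by
    have ih := psi_line hA fl j s hs k
    unfold psi
    by_cases hk : k < N
    · rw [dif_pos hk, ih]
      by_cases hj : (⟨k, hk⟩ : Fin N) = j
      · subst hj
        simp
      · have hv : (j : ℕ) ≠ k := fun h => hj (Fin.ext h.symm)
        rw [show ((0, Pi.single j s) : Prm n r N).2 ⟨k, hk⟩ = 0 from Pi.single_eq_of_ne hj _]
        by_cases h' : (j : ℕ) < k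
        · rw [if_pos h', if_pos (by omega), (fl _).step_zero _ hs]
        · rw [if_neg h', if_neg (by omega), (fl _).step_zero _ (detOne_locus hA)]
    · rw [dif_neg hk, ih, if_pos (lt_of_lt_of_le j.2 (not_lt.1 hk)),
        if_pos (lt_of_lt_of_le j.2 ((not_lt.1 hk).trans k.le_succ))]

/-- If velocities of flows span the second components, a neighbourhood in the representation
variety lies in the closure. -/
theorem exists_open_of_span (hr : r ≠ 0) {A : Fin n → Mat r ℂ} (hA : DetA A)
    (hS : ∀ e, Tang A e → e.2 ∈ Submodule.span ℂ (Set.range fun p => (vel A p).2)) :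
    ∃ U : Set (Tup n (Mat r ℂ)), IsOpen U ∧ locus A ∈ U ∧ ∀ q ∈ U, IsRep q → q ∈ Zset n r := by
  obtain ⟨b, hb, hbs, hbl⟩ := exists_linearIndependent ℂ (Set.range (vel A))
  have hbf : b.Finite := hbl.setFinite
  let e : Fin hbf.toFinset.card ≃ hbf.toFinset := hbf.toFinset.equivFin.symm
  have hmem : ∀ j, ∃ p, vel A p = e j := fun j => hb (hbf.mem_toFinset.1 (e j).2)
  choose p hp using hmem
  let fl : Fin hbf.toFinset.card → Flw n r := fun j => toFlw (p j)
  refine exists_open_subset_zset A fl hr hA fun x hx => ?_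
  set Ψ := psi A fl hbf.toFinset.card with hΨ
  set T := LinearMap.range (fderiv ℂ Ψ 0).toLinearMap with hT
  have hΨd : HasFDerivAt Ψ (fderiv ℂ Ψ 0) 0 :=
    ((contDiff_psi A fl _).differentiable one_ne_zero 0).hasFDerivAt
  have hline : ∀ v : Prm n r hbf.toFinset.card, HasDerivAt (fun t : ℂ => Ψ (t • v))
      (fderiv ℂ Ψ 0 v) 0 := fun v => by
    have h1 : HasFDerivAt Ψ (fderiv ℂ Ψ 0) ((0 : ℂ) • v) := by rw [zero_smul]; exact hΨd
    have h2 := (hasDerivAt_id (0 : ℂ)).smul_const v
    rw [one_smul] at h2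
    exact h1.comp_hasDerivAt 0 h2
  have hvel : Submodule.span ℂ (Set.range (vel A)) ≤ T := by
    rw [← hbs, Submodule.span_le]
    intro y hy
    obtain ⟨j, hj⟩ : ∃ j, (e j : Tup n (Mat r ℂ)) = y :=
      ⟨e.symm ⟨y, hbf.mem_toFinset.2 hy⟩, by simp⟩
    refine ⟨((0, Pi.single j 1) : Prm n r _), ?_⟩
    change fderiv ℂ Ψ 0 _ = y
    have heq : (fun t : ℂ => Ψ (t • ((0, Pi.single j 1) : Prm n r _))) =
        fun t => (toFlw (p j)).step t (locus A) := funext fun t => by
      have : t • ((0, Pi.single j 1) : Prm n r hbf.toFinset.card) = (0, Pi.single j t) := by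
        simp [← Pi.single_smul']
      rw [this, hΨ, psi_line hA fl j t (isRep_step hr hA (p j) t).1, if_pos j.2]
    have h := hline ((0, Pi.single j 1) : Prm n r _)
    rw [heq] at h
    rw [h.unique (hasDerivAt_vel A (p j)), hp, hj]
  have hx' := tang_of_fderiv_eqs hA hx
  obtain ⟨w, hw, hw2⟩ : ∃ w ∈ Submodule.span ℂ (Set.range (vel A)), w.2 = x.2 := by
    have h := hS x hx'
    rw [show (fun p => (vel A p).2) = LinearMap.snd ℂ (Fin n → Mat r ℂ) (Fin n → Mat r ℂ) ∘ vel A
      from rfl, Set.range_comp, Submodule.span_image] at h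
    exact Submodule.mem_map.1 h
  have hwt : ∀ i, (adjugate (A i) * w.1 i).trace = 0 := by
    clear hw2
    induction hw using Submodule.span_induction with
    | mem y hy => obtain ⟨q, rfl⟩ := hy; exact (tang_vel hr hA q).1
    | zero => intro i; simp
    | add y z _ _ hy hz => intro i; simp [mul_add, hy i, hz i]
    | smul c y _ hy => intro i; simp [hy i]
  let α : Fin n → Mat r ℂ := fun i => adjugate (A i) * (x.1 i - w.1 i)
  have hα : ∀ i, (α i).trace = 0 := fun i => by simp [α, mul_sub, hx'.1 i, hwt i]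
  have hb0 : fderiv ℂ Ψ 0 ((α, 0) : Prm n r _) = x - w := by
    have heq : (fun t : ℂ => Ψ (t • ((α, 0) : Prm n r _))) = fun t => locus (base A (t • α)) :=
      funext fun t => by simp [hΨ, psi_zero A fl hA]
    have h := hline ((α, 0) : Prm n r _)
    rw [heq] at h
    have h2 : HasDerivAt (fun t : ℂ => locus (base A (t • α)))
        ((fun i => A i * α i, 0) : Tup n (Mat r ℂ)) 0 :=
      (hasDerivAt_base_line A α hα).prodMk (hasDerivAt_const 0 _)
    rw [h.unique h2]
    refine Prod.ext (funext fun i => ?_) ?_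
    · simp [α, ← mul_assoc, hA.mul_adj]
    · simp [hw2]
  obtain ⟨v, hv⟩ := hvel hw
  refine ⟨(α, 0) + v, ?_⟩
  rw [map_add, hb0]
  rw [show fderiv ℂ Ψ 0 v = w from hv, sub_add_cancel]

end Vale.Agent.P002
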