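import Mathlib

/-!
The surface relation and three substitutions which preserve it: a handle slide, a swap of the
first two handles and a rotation of the handles.  They are written with an abstract inversion, so
that they act on tuples of matrices with the adjugate in its place.
-/

namespace Vale.Agent.P002

/-- Two lists of `n` generators. -/
abbrev Tup (n : ℕ) (M : Type*) : Type _ := (Fin n → M) × (Fin n → M)

variable {M : Type*} [Monoid M] {g : ℕ}

/-- The product of the commutators. -/
def rel {n : ℕ} (inv : M → M) (p : Tup n M) : M :=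
  (List.ofFn fun i => p.1 i * p.2 i * inv (p.1 i) * inv (p.2 i)).prod

/-- The handle slide: on the locus `b = 1` it sends `a 0` to `(a 1)⁻¹ * a 0`. -/
def slide (inv : M → M) (p : Tup (g + 2) M) : Tup (g + 2) M :=
  (Fin.cons (inv (p.1 1) * p.2 0 * p.1 0 * inv (p.2 0))
    (Fin.cons (p.1 1) fun i => inv (p.1 1) * p.2 0 * p.1 i.succ.succ * (inv (p.2 0) * p.1 1)),
   Fin.cons (p.2 0)
    (Fin.cons (inv (p.1 1) * p.2 0 * p.2 1 * p.1 1)
      fun i => inv (p.1 1) * p.2 0 * p.2 i.succ.succ * (inv (p.2 0) * p.1 1)))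

/-- The inverse of the handle slide. -/
def unslide (inv : M → M) (p : Tup (g + 2) M) : Tup (g + 2) M :=
  (Fin.cons (inv (p.2 0) * p.1 1 * p.1 0 * p.2 0)
    (Fin.cons (p.1 1) fun i => inv (p.2 0) * p.1 1 * p.1 i.succ.succ * (inv (p.1 1) * p.2 0)),
   Fin.cons (p.2 0)
    (Fin.cons (inv (p.2 0) * (p.1 1 * p.2 1 * inv (p.1 1)))
      fun i => inv (p.2 0) * p.1 1 * p.2 i.succ.succ * (inv (p.1 1) * p.2 0)))

/-- The swap of the first two handles. -/
def swapH (inv : M → M) (p : Tup (g + 2) M) : Tup (g + 2) M :=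
  (Fin.cons (p.1 0 * p.2 0 * inv (p.1 0) * inv (p.2 0) * p.1 1 *
      (p.2 0 * p.1 0 * inv (p.2 0) * inv (p.1 0)))
    (Fin.cons (p.1 0) fun i => p.1 i.succ.succ),
   Fin.cons (p.1 0 * p.2 0 * inv (p.1 0) * inv (p.2 0) * p.2 1 *
      (p.2 0 * p.1 0 * inv (p.2 0) * inv (p.1 0)))
    (Fin.cons (p.2 0) fun i => p.2 i.succ.succ))

/-- The inverse of the swap. -/
def unswapH (inv : M → M) (p : Tup (g + 2) M) : Tup (g + 2) M :=
  (Fin.cons (p.1 1)
    (Fin.cons (p.2 1 * p.1 1 * inv (p.2 1) * inv (p.1 1) * p.1 0 *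
      (p.1 1 * p.2 1 * inv (p.1 1) * inv (p.2 1))) fun i => p.1 i.succ.succ),
   Fin.cons (p.2 1)
    (Fin.cons (p.2 1 * p.1 1 * inv (p.2 1) * inv (p.1 1) * p.2 0 *
      (p.1 1 * p.2 1 * inv (p.1 1) * inv (p.2 1))) fun i => p.2 i.succ.succ))

/-- The rotation of the handles. -/
def rot (p : Tup (g + 2) M) : Tup (g + 2) M :=
  (p.1 ∘ finRotate (g + 2), p.2 ∘ finRotate (g + 2))

/-- The inverse rotation. -/
def unrot (p : Tup (g + 2) M) : Tup (g + 2) M :=
  (p.1 ∘ (finRotate (g + 2)).symm, p.2 ∘ (finRotate (g + 2)).symm)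

/-- The twist of a handle: `b i` becomes `b i * a i`. -/
def twist {n : ℕ} (i : Fin n) (p : Tup n M) : Tup n M :=
  (p.1, Function.update p.2 i (p.2 i * p.1 i))

/-- Apply a map to every entry. -/
def mapTup {N : Type*} {n : ℕ} (h : M → N) (p : Tup n M) : Tup n N := (h ∘ p.1, h ∘ p.2)

section Natural

variable {N : Type*} [Monoid N] (h : M →* N) (inv : M → M) (inv' : N → N)
  (hinv : ∀ a, h (inv a) = inv' (h a))

include hinv

theorem rel_map {n : ℕ} (p : Tup n M) : rel inv' (mapTup h p) = h (rel inv p) := by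
  simp only [rel, map_list_prod, List.map_ofFn]
  congr 2
  funext i
  simp [mapTup, hinv]

theorem slide_map (p : Tup (g + 2) M) : slide inv' (mapTup h p) = mapTup h (slide inv p) := by
  refine Prod.ext (funext fun i => ?_) (funext fun i => ?_) <;>
    refine Fin.cases ?_ (fun i => Fin.cases ?_ (fun i => ?_) i) i <;>
    simp [slide, mapTup, hinv]

theorem unslide_map (p : Tup (g + 2) M) :
    unslide inv' (mapTup h p) = mapTup h (unslide inv p) := by
  refine Prod.ext (funext fun i => ?_) (funext fun i => ?_) <;>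
    refine Fin.cases ?_ (fun i => Fin.cases ?_ (fun i => ?_) i) i <;>
    simp [unslide, mapTup, hinv]

theorem swapH_map (p : Tup (g + 2) M) : swapH inv' (mapTup h p) = mapTup h (swapH inv p) := by
  refine Prod.ext (funext fun i => ?_) (funext fun i => ?_) <;>
    refine Fin.cases ?_ (fun i => Fin.cases ?_ (fun i => ?_) i) i <;>
    simp [swapH, mapTup, hinv]

theorem unswapH_map (p : Tup (g + 2) M) :
    unswapH inv' (mapTup h p) = mapTup h (unswapH inv p) := by
  refine Prod.ext (funext fun i => ?_) (funext fun i => ?_) <;>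
    refine Fin.cases ?_ (fun i => Fin.cases ?_ (fun i => ?_) i) i <;>
    simp [unswapH, mapTup, hinv]

end Natural

omit [Monoid M] in
theorem rot_map {N : Type*} [Monoid N] (h : M → N) (p : Tup (g + 2) M) :
    rot (mapTup h p) = mapTup h (rot p) := rfl

omit [Monoid M] in
theorem unrot_map {N : Type*} [Monoid N] (h : M → N) (p : Tup (g + 2) M) :
    unrot (mapTup h p) = mapTup h (unrot p) := rfl

theorem twist_map {N : Type*} [Monoid N] (h : M →* N) {n : ℕ} (i : Fin n) (p : Tup n M) :
    twist i (mapTup h p) = mapTup h (twist i p) := by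
  simp only [twist, mapTup, Function.comp_update, map_mul, Function.comp_apply]

/-! ### In a group -/

section Group

variable {G : Type*} [Group G]

/-- The product of the commutators in a group. -/
abbrev relG {n : ℕ} (p : Tup n G) : G := rel (fun a : G => a⁻¹) p

private theorem list_prod_conj (q : G) (l : List G) :
    (l.map fun x => q * x * q⁻¹).prod = q * l.prod * q⁻¹ := by
  induction l with
  | nil => simp
  | cons a l ih => simp only [List.map_cons, List.prod_cons, ih]; group

private theorem rel_split (p : Tup (g + 2) G) :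
    relG p = p.1 0 * p.2 0 * (p.1 0)⁻¹ * (p.2 0)⁻¹ * (p.1 1 * p.2 1 * (p.1 1)⁻¹ * (p.2 1)⁻¹ *
      relG ((fun i => p.1 i.succ.succ, fun i => p.2 i.succ.succ) : Tup g G)) := by
  simp [relG, rel, List.ofFn_succ]

theorem relG_slide (p : Tup (g + 2) G) :
    relG (slide (fun a : G => a⁻¹) p) =
      (p.1 1)⁻¹ * p.2 0 * relG p * ((p.1 1)⁻¹ * p.2 0)⁻¹ := by
  rw [rel_split, rel_split p]
  have h : relG ((fun i => (slide (fun a : G => a⁻¹) p).1 i.succ.succ,
      fun i => (slide (fun a : G => a⁻¹) p).2 i.succ.succ) : Tup g G) =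
      (p.1 1)⁻¹ * p.2 0 *
        relG ((fun i => p.1 i.succ.succ, fun i => p.2 i.succ.succ) : Tup g G) *
          ((p.1 1)⁻¹ * p.2 0)⁻¹ := by
    rw [relG, rel, relG, rel, ← list_prod_conj, List.map_ofFn]
    congr 2
    funext i
    simp only [slide, Fin.cons_succ, Function.comp_apply]
    group
  rw [h]
  simp only [slide, Fin.cons_zero, Fin.cons_one]
  group

theorem slide_unslide (p : Tup (g + 2) G) :
    slide (fun a : G => a⁻¹) (unslide (fun a : G => a⁻¹) p) = p := by
  refine Prod.ext (funext fun i => ?_) (funext fun i => ?_) <;>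
    refine Fin.cases ?_ (fun i => Fin.cases ?_ (fun i => ?_) i) i <;>
    simp [slide, unslide] <;> group

theorem unslide_slide (p : Tup (g + 2) G) :
    unslide (fun a : G => a⁻¹) (slide (fun a : G => a⁻¹) p) = p := by
  refine Prod.ext (funext fun i => ?_) (funext fun i => ?_) <;>
    refine Fin.cases ?_ (fun i => Fin.cases ?_ (fun i => ?_) i) i <;>
    simp [slide, unslide] <;> group

theorem relG_swapH (p : Tup (g + 2) G) : relG (swapH (fun a : G => a⁻¹) p) = relG p := by
  rw [rel_split, rel_split p]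
  simp only [swapH, Fin.cons_zero, Fin.cons_one, Fin.cons_succ]
  group

theorem swapH_unswapH (p : Tup (g + 2) G) :
    swapH (fun a : G => a⁻¹) (unswapH (fun a : G => a⁻¹) p) = p := by
  refine Prod.ext (funext fun i => ?_) (funext fun i => ?_) <;>
    refine Fin.cases ?_ (fun i => Fin.cases ?_ (fun i => ?_) i) i <;>
    simp [swapH, unswapH] <;> group

theorem unswapH_swapH (p : Tup (g + 2) G) :
    unswapH (fun a : G => a⁻¹) (swapH (fun a : G => a⁻¹) p) = p := by
  refine Prod.ext (funext fun i => ?_) (funext fun i => ?_) <;>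
    refine Fin.cases ?_ (fun i => Fin.cases ?_ (fun i => ?_) i) i <;>
    simp [swapH, unswapH] <;> group

theorem relG_rot (p : Tup (g + 2) G) :
    relG (rot p) = (p.1 0 * p.2 0 * (p.1 0)⁻¹ * (p.2 0)⁻¹)⁻¹ * relG p *
      (p.1 0 * p.2 0 * (p.1 0)⁻¹ * (p.2 0)⁻¹) := by
  set c : Fin (g + 2) → G := fun i => p.1 i * p.2 i * (p.1 i)⁻¹ * (p.2 i)⁻¹ with hc
  have h1 : relG (rot p) = (List.ofFn fun i : Fin (g + 1) => c i.succ).prod * c 0 := by
    rw [relG, rel, List.ofFn_succ', List.prod_concat]
    congr 1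
    · congr 2
      funext i
      simp [rot, hc, finRotate_apply, Fin.coeSucc_eq_succ]
    · simp [rot, hc, finRotate_apply]
  have h2 : relG p = c 0 * (List.ofFn fun i : Fin (g + 1) => c i.succ).prod := by
    rw [relG, rel, List.ofFn_succ, List.prod_cons]
  change _ = (c 0)⁻¹ * relG p * c 0
  rw [h1, h2]
  group

theorem relG_twist {n : ℕ} (i : Fin n) (p : Tup n G) : relG (twist i p) = relG p := by
  simp only [relG, rel, twist]
  congr 2
  funext j
  by_cases h : j = i
  · subst h
    simp only [Function.update_self]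
    group
  · rw [Function.update_of_ne h]

omit [Group G] in
theorem rot_unrot (p : Tup (g + 2) G) : rot (unrot p) = p := by
  simp [rot, unrot, Function.comp_assoc]

omit [Group G] in
theorem unrot_rot (p : Tup (g + 2) G) : unrot (rot p) = p := by
  simp [rot, unrot, Function.comp_assoc]

end Group

end Vale.Agent.P002
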